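import Mathlib

/-!
P092 (helper941), [B-7], group part: a covariant family of rings of compact open subsets of a
totally disconnected group without nontrivial power bounded normal subgroups is the family of all
compact open sets.
-/

set_option linter.all false

open Topology Set Pointwise

namespace Vale.Agent.P092.H941

variable {H : Type*} [Group H] [TopologicalSpace H] [IsTopologicalGroup H]

/-- The axioms of the family: `𝒜 L` (for `L` a compact open subgroup) is a ring of compact open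
sets, covariant, decreasing in `L`, and covers `H`. -/
structure Fam (D D' : Subgroup H) (𝒜 : Subgroup H → Set (Set H)) : Prop where
  compact : ∀ {L C}, C ∈ 𝒜 L → IsCompact C
  isOpen : ∀ {L C}, C ∈ 𝒜 L → IsOpen C
  empty : ∀ L, ∅ ∈ 𝒜 L
  inter : ∀ {L C C'}, C ∈ 𝒜 L → C' ∈ 𝒜 L → C ∩ C' ∈ 𝒜 L
  union : ∀ {L C C'}, C ∈ 𝒜 L → C' ∈ 𝒜 L → C ∪ C' ∈ 𝒜 L
  diff : ∀ {L C C'}, C ∈ 𝒜 L → C' ∈ 𝒜 L → C \ C' ∈ 𝒜 L
  right : ∀ {L : Subgroup H} {C}, IsCompact (L : Set H) → IsOpen (L : Set H) → C ∈ 𝒜 L →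
    ∀ k ∈ D', {x | x * k ∈ C} ∈ 𝒜 L
  anti : ∀ {L L' : Subgroup H}, IsCompact (L' : Set H) → IsOpen (L' : Set H) →
    IsCompact (L : Set H) → L' ≤ L → 𝒜 L' ⊆ 𝒜 L
  conj : ∀ {L : Subgroup H} {C}, IsCompact (L : Set H) → IsOpen (L : Set H) → C ∈ 𝒜 L → ∀ g ∈ D,
    {x | g⁻¹ * x ∈ C} ∈ 𝒜 (L.map (MulAut.conj g).toMonoidHom)
  cover : ∀ {L : Subgroup H}, IsCompact (L : Set H) → IsOpen (L : Set H) → ∀ x, ∃ C ∈ 𝒜 L, x ∈ C

namespace Fam

variable {D D' : Subgroup H} {𝒜 : Subgroup H → Set (Set H)}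

/-- The left stabiliser of the family. -/
def stab (𝒜 : Subgroup H → Set (Set H)) (L : Subgroup H) : Subgroup H where
  carrier := {v | ∀ C ∈ 𝒜 L, ∀ h, h ∈ C ↔ v * h ∈ C}
  one_mem' := fun C hC h => by rw [one_mul]
  mul_mem' := by
    intro a b ha hb C hC h
    rw [hb C hC h, ha C hC (b * h), mul_assoc]
  inv_mem' := by
    intro a ha C hC h
    rw [ha C hC (a⁻¹ * h), mul_inv_cancel_left]

theorem mem_stab {L : Subgroup H} {v : H} : v ∈ stab 𝒜 L ↔ ∀ C ∈ 𝒜 L, ∀ h, h ∈ C ↔ v * h ∈ C :=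
  Iff.rfl

variable (hA : Fam D D' 𝒜)
include hA

theorem isClosed' [T2Space H] {L C} (hC : C ∈ 𝒜 L) : IsClosed C := (hA.compact hC).isClosed

theorem isClosed_stab [T2Space H] (L : Subgroup H) : IsClosed (stab 𝒜 L : Set H) := by
  have h : (stab 𝒜 L : Set H) = ⋂ C ∈ 𝒜 L, ⋂ h : H, {v | h ∈ C ↔ v * h ∈ C} := by
    ext v
    simp only [SetLike.mem_coe, mem_stab, mem_iInter, mem_setOf_eq]
  rw [h]
  refine isClosed_biInter fun C hC => isClosed_iInter fun h => ?_
  have hclopen : IsClopen C := ⟨hA.isClosed' hC, hA.isOpen hC⟩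
  have h1 : IsClopen {v : H | v * h ∈ C} := hclopen.preimage (continuous_mul_right h)
  by_cases hh : h ∈ C
  · have : {v : H | h ∈ C ↔ v * h ∈ C} = {v : H | v * h ∈ C} := by
      ext v; simp only [mem_setOf_eq, hh, true_iff]
    rw [this]; exact h1.1
  · have : {v : H | h ∈ C ↔ v * h ∈ C} = {v : H | v * h ∈ C}ᶜ := by
      ext v; simp only [mem_setOf_eq, hh, false_iff, mem_compl_iff]
    rw [this]; exact h1.compl.1

theorem isCompact_stab [T2Space H] {L : Subgroup H} (hL : IsCompact (L : Set H))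
    (hLo : IsOpen (L : Set H)) : IsCompact (stab 𝒜 L : Set H) := by
  obtain ⟨C, hC, h1⟩ := hA.cover hL hLo 1
  refine (hA.compact hC).of_isClosed_subset (hA.isClosed_stab L) fun v hv => ?_
  have := (mem_stab.1 hv C hC 1).1 h1
  rwa [mul_one] at this

theorem stab_anti {L L' : Subgroup H} (h1 : IsCompact (L' : Set H)) (h2 : IsOpen (L' : Set H))
    (h3 : IsCompact (L : Set H)) (h : L' ≤ L) : stab 𝒜 L ≤ stab 𝒜 L' :=
  fun v hv => mem_stab.2 fun C hC => mem_stab.1 hv C (hA.anti h1 h2 h3 h hC)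

/-- Right translations by all elements. -/
theorem right_all [T2Space H] (hD' : Dense (D' : Set H)) {L : Subgroup H} {C : Set H}
    (h1 : IsCompact (L : Set H)) (h2 : IsOpen (L : Set H))
    (hC : C ∈ 𝒜 L) (k : H) : {x | x * k ∈ C} ∈ 𝒜 L := by
  -- `W = {u | C u ⊆ C}` contains a neighbourhood of `1`
  have hcl : IsClosed C := hA.isClosed' hC
  obtain ⟨V, hV, hVC⟩ : ∃ V ∈ 𝓝 (1 : H), C * V ⊆ C :=
    compact_open_separated_mul_right (hA.compact hC) (hA.isOpen hC) subset_rfl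
  obtain ⟨W, hW, hWV, hWs⟩ : ∃ W ∈ 𝓝 (1 : H), W ⊆ V ∧ W⁻¹ = W := by
    refine ⟨V ∩ V⁻¹, Filter.inter_mem hV (inv_mem_nhds_one H hV), inter_subset_left, ?_⟩
    rw [inter_inv, inv_inv, inter_comm]
  -- choose `d ∈ D'` with `k ∈ d W`, i.e. `d⁻¹ k ∈ W`
  have hopen : (fun x => x⁻¹ * k) ⁻¹' W ∈ 𝓝 k := by
    have hc : Continuous fun x : H => x⁻¹ * k := (continuous_inv).mul continuous_const
    refine hc.continuousAt.preimage_mem_nhds ?_
    rw [inv_mul_cancel]; exact hW
  obtain ⟨d, hd, hdD⟩ := (mem_closure_iff_nhds.1 (hD' k)) _ hopen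
  have hd' : d⁻¹ * k ∈ W := hd
  have hkd : k⁻¹ * d ∈ W := by
    have h1 : (d⁻¹ * k)⁻¹ ∈ W⁻¹ := Set.inv_mem_inv.2 hd'
    rwa [hWs, mul_inv_rev, inv_inv] at h1
  have : {x | x * k ∈ C} = {x | x * d ∈ C} := by
    ext x
    simp only [mem_setOf_eq]
    constructor
    · intro h
      have h2 := hVC (Set.mul_mem_mul h (hWV hkd))
      rwa [show x * k * (k⁻¹ * d) = x * d by group] at h2
    · intro h
      have h2 := hVC (Set.mul_mem_mul h (hWV hd'))
      rwa [show x * d * (d⁻¹ * k) = x * k by group] at h2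
  rw [this]
  exact hA.right h1 h2 hC d hdD

theorem conj_stab {L : Subgroup H} (h1 : IsCompact (L : Set H)) (h2 : IsOpen (L : Set H))
    {g : H} (hg : g ∈ D) {v : H} (hv : v ∈ stab 𝒜 L) :
    g * v * g⁻¹ ∈ stab 𝒜 (L.map (MulAut.conj g).toMonoidHom) := by
  set L' := L.map (MulAut.conj g).toMonoidHom with hL'
  have hL'c : IsCompact (L' : Set H) := by
    have : (L' : Set H) = (fun x => g * x * g⁻¹) '' (L : Set H) := by
      ext x; simp [hL', Subgroup.mem_map, MulAut.conj_apply]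
    rw [this]
    exact h1.image (by fun_prop)
  have hL'o : IsOpen (L' : Set H) := by
    have : (L' : Set H) = (fun x => g⁻¹ * x * g) ⁻¹' (L : Set H) := by
      ext x
      simp only [hL', Subgroup.coe_map, MulEquiv.coe_toMonoidHom, mem_image, SetLike.mem_coe,
        MulAut.conj_apply, mem_preimage]
      constructor
      · rintro ⟨y, hy, rfl⟩
        rwa [show g⁻¹ * (g * y * g⁻¹) * g = y by group]
      · intro h
        exact ⟨_, h, by group⟩
    rw [this]
    exact h2.preimage (by fun_prop)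
  refine mem_stab.2 fun C hC h => ?_
  have h3 := hA.conj hL'c hL'o hC g⁻¹ (D.inv_mem hg)
  have h4 : L'.map (MulAut.conj g⁻¹).toMonoidHom = L := by
    ext x
    simp only [hL', Subgroup.mem_map, MulEquiv.coe_toMonoidHom, MulAut.conj_apply, inv_inv]
    constructor
    · rintro ⟨y, ⟨z, hz, rfl⟩, rfl⟩
      rwa [show g⁻¹ * (g * z * g⁻¹) * g = z by group]
    · intro hx
      exact ⟨g * x * g⁻¹, ⟨x, hx, rfl⟩, by group⟩
  rw [h4] at h3
  have h5 := mem_stab.1 hv _ h3 (g⁻¹ * h)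
  simp only [mem_setOf_eq, inv_inv, mul_inv_cancel_left] at h5
  rw [h5]
  rw [show g * (v * (g⁻¹ * h)) = g * v * g⁻¹ * h by group]

/-- The stabiliser is trivial. -/
theorem stab_eq_bot [T2Space H] (hD : Dense (D : Set H))
    (hH : ∀ N : Subgroup H, N.Normal → (∀ g ∈ N, ∃ C : Set H, IsCompact C ∧ ∀ m : ℕ, g ^ m ∈ C) →
      N = ⊥) {L : Subgroup H} (h1 : IsCompact (L : Set H)) (h2 : IsOpen (L : Set H)) :
    stab 𝒜 L = ⊥ := by
  -- the union of the stabilisers
  let N : Subgroup H :=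
    { carrier := {v | ∃ L : Subgroup H, IsCompact (L : Set H) ∧ IsOpen (L : Set H) ∧ v ∈ stab 𝒜 L}
      one_mem' := ⟨L, h1, h2, one_mem _⟩
      mul_mem' := by
        rintro a b ⟨L1, c1, o1, ha⟩ ⟨L2, c2, o2, hb⟩
        have c3 : IsCompact ((L1 ⊓ L2 : Subgroup H) : Set H) := by
          rw [Subgroup.coe_inf]; exact c1.inter c2
        have o3 : IsOpen ((L1 ⊓ L2 : Subgroup H) : Set H) := by
          rw [Subgroup.coe_inf]; exact o1.inter o2
        exact ⟨L1 ⊓ L2, c3, o3, mul_mem (hA.stab_anti c3 o3 c1 inf_le_left ha)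
          (hA.stab_anti c3 o3 c2 inf_le_right hb)⟩
      inv_mem' := by
        rintro a ⟨L1, c1, o1, ha⟩
        exact ⟨L1, c1, o1, inv_mem ha⟩ }
  have hN : N.Normal := by
    refine ⟨?_⟩
    rintro v ⟨L, c1, o1, hv⟩ h
    -- `g v g⁻¹ ∈ stab (hLh⁻¹)` for `g ∈ D ∩ hL`
    set L' := L.map (MulAut.conj h).toMonoidHom with hL'
    have hL'c : IsCompact (L' : Set H) := by
      have : (L' : Set H) = (fun x => h * x * h⁻¹) '' (L : Set H) := by
        ext x; simp [hL', Subgroup.mem_map, MulAut.conj_apply]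
      rw [this]
      exact c1.image (by fun_prop)
    have hmem : ∀ x, x ∈ L' ↔ h⁻¹ * x * h ∈ L := by
      intro x
      simp only [hL', Subgroup.mem_map, MulEquiv.coe_toMonoidHom, MulAut.conj_apply]
      constructor
      · rintro ⟨y, hy, rfl⟩
        rwa [show h⁻¹ * (h * y * h⁻¹) * h = y by group]
      · intro hx
        exact ⟨_, hx, by group⟩
    have hL'o : IsOpen (L' : Set H) := by
      have : (L' : Set H) = (fun x => h⁻¹ * x * h) ⁻¹' (L : Set H) := by
        ext x; exact hmem x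
      rw [this]
      exact o1.preimage (by fun_prop)
    refine ⟨L', hL'c, hL'o, ?_⟩
    have hcl := hA.isClosed_stab L'
    have hS : IsClosed {g : H | g * v * g⁻¹ ∈ stab 𝒜 L'} := hcl.preimage (by fun_prop)
    have hU : IsOpen {g : H | h⁻¹ * g ∈ L} := o1.preimage (by fun_prop)
    have hcont : closure ({g : H | h⁻¹ * g ∈ L} ∩ (D : Set H)) ⊆
        {g : H | g * v * g⁻¹ ∈ stab 𝒜 L'} := by
      refine closure_minimal ?_ hS
      rintro g ⟨hg, hgD⟩
      have h3 := hA.conj_stab c1 o1 hgD hv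
      have h4 : L.map (MulAut.conj g).toMonoidHom = L' := by
        ext x
        rw [hmem]
        simp only [Subgroup.mem_map, MulEquiv.coe_toMonoidHom, MulAut.conj_apply]
        have hg' : h⁻¹ * g ∈ L := hg
        constructor
        · rintro ⟨y, hy, rfl⟩
          rw [show h⁻¹ * (g * y * g⁻¹) * h = (h⁻¹ * g) * y * (h⁻¹ * g)⁻¹ by group]
          exact L.mul_mem (L.mul_mem hg' hy) (L.inv_mem hg')
        · intro hx
          refine ⟨g⁻¹ * x * g, ?_, by group⟩
          rw [show g⁻¹ * x * g = (h⁻¹ * g)⁻¹ * (h⁻¹ * x * h) * (h⁻¹ * g) by group]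
          exact L.mul_mem (L.mul_mem (L.inv_mem hg') hx) hg'
      rw [h4] at h3
      exact h3
    refine hcont ?_
    have hin : h ∈ {g : H | h⁻¹ * g ∈ L} := by
      simp only [mem_setOf_eq, inv_mul_cancel]; exact one_mem _
    exact hU.inter_closure ⟨hin, hD h⟩
  have hbot := hH N hN (by
    rintro g ⟨L, c1, o1, hg⟩
    exact ⟨stab 𝒜 L, hA.isCompact_stab c1 o1, fun m => pow_mem hg m⟩)
  refine (Subgroup.eq_bot_iff_forall _).2 fun v hv => ?_
  have : v ∈ N := ⟨L, h1, h2, hv⟩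
  rw [hbot] at this
  exact Subgroup.mem_bot.1 this

/-- **Main lemma.** Every compact open set belongs to `𝒜 L`. -/
theorem mem_all [T2Space H] (hD : Dense (D : Set H)) (hD' : Dense (D' : Set H))
    (hH : ∀ N : Subgroup H, N.Normal → (∀ g ∈ N, ∃ C : Set H, IsCompact C ∧ ∀ m : ℕ, g ^ m ∈ C) →
      N = ⊥) {L : Subgroup H} (h1 : IsCompact (L : Set H)) (h2 : IsOpen (L : Set H))
    {E : Set H} (hE : IsCompact E) (hEo : IsOpen E) : E ∈ 𝒜 L := by
  have hst := hA.stab_eq_bot hD hH h1 h2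
  -- separation
  have hsep : ∀ x y : H, x ≠ y → ∃ C ∈ 𝒜 L, x ∈ C ∧ y ∉ C := by
    intro x y hxy
    by_contra hno
    push Not at hno
    obtain ⟨C0, hC0, hx0⟩ := hA.cover h1 h2 x
    have hiff : ∀ C ∈ 𝒜 L, (x ∈ C ↔ y ∈ C) := by
      intro C hC
      refine ⟨fun h => hno C hC h, fun h => ?_⟩
      by_contra hx
      have := hno (C0 \ C) (hA.diff hC0 hC) ⟨hx0, hx⟩
      exact this.2 h
    have hv : y * x⁻¹ ∈ stab 𝒜 L := by
      refine mem_stab.2 fun C hC h => ?_
      have h3 := hiff _ (hA.right_all hD' h1 h2 hC (x⁻¹ * h))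
      simp only [mem_setOf_eq, mul_inv_cancel_left] at h3
      rw [h3, mul_assoc]
    rw [hst, Subgroup.mem_bot, mul_inv_eq_one] at hv
    exact hxy hv.symm
  -- small neighbourhoods
  have hsmall : ∀ x ∈ E, ∃ C ∈ 𝒜 L, x ∈ C ∧ C ⊆ E := by
    intro x hx
    obtain ⟨C0, hC0, hx0⟩ := hA.cover h1 h2 x
    have hK : IsCompact (C0 \ E) := (hA.compact hC0).diff hEo
    choose! F hF using fun y (hy : y ∈ C0 \ E) => hsep x y (fun h => hy.2 (h ▸ hx))
    obtain ⟨t, htc⟩ := hK.elim_nhds_subcover' (fun y hy => (F y)ᶜ) (fun y hy => by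
      refine (hA.isClosed' (hF y hy).1).isOpen_compl.mem_nhds ?_
      exact (hF y hy).2.2)
    refine ⟨C0 ∩ ⋂ y ∈ t, F y, ?_, ⟨hx0, ?_⟩, ?_⟩
    · have : ∀ s : Finset (C0 \ E : Set H), C0 ∩ ⋂ y ∈ s, F y ∈ 𝒜 L := by
        intro s
        classical
        induction s using Finset.induction_on with
        | empty => simpa using hC0
        | insert a s ha ih =>
          have h5 : C0 ∩ ⋂ y ∈ insert a s, F y = (C0 ∩ ⋂ y ∈ s, F y) ∩ F a := by
            ext z
            simp only [Finset.mem_insert, iInter_iInter_eq_or_left, mem_inter_iff, mem_iInter]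
            tauto
          rw [h5]
          exact hA.inter ih (hF a a.2).1
      exact this t
    · simp only [mem_iInter]
      intro y _
      exact (hF y y.2).2.1
    · rintro z ⟨hz0, hz⟩
      by_contra hzE
      have h6 := htc ⟨hz0, hzE⟩
      simp only [mem_iUnion, mem_compl_iff] at h6
      obtain ⟨y, hy, hzy⟩ := h6
      simp only [mem_iInter] at hz
      exact hzy (hz y hy)
  choose! F hF using hsmall
  obtain ⟨t, ht, htc⟩ := hE.elim_nhds_subcover F (fun x hx => (hA.isOpen (hF x hx).1).mem_nhds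
    (hF x hx).2.1)
  have hEq : E = ⋃ x ∈ t, F x := by
    refine Subset.antisymm htc ?_
    simp only [iUnion_subset_iff]
    exact fun x hx => (hF x (ht x hx)).2.2
  rw [hEq]
  clear hEq htc
  classical
  induction t using Finset.induction_on with
  | empty => simpa using hA.empty L
  | insert a s ha ih =>
    rw [Finset.set_biUnion_insert]
    exact hA.union (hF a (ht a (Finset.mem_insert_self a s))).1
      (ih fun x hx => ht x (Finset.mem_insert_of_mem hx))

end Fam

end Vale.Agent.P092.H941
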