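import Vale.Agent.P092.H941.Pinch
import Vale.Agent.P092.H941.Ring

/-!
P092 (helper941), [B-7]: the projections of the two legs at the same place commute.
-/

set_option linter.all false

open scoped InnerProductSpace
open Filter Topology ContinuousLinearMap Set Pointwise

namespace Vale.Agent.P092.H941

open Vale.Agent.P092.SR

section

variable {Γ H ℋ : Type} [Group Γ] [Group H] [TopologicalSpace H] [IsTopologicalGroup H]
  [T2Space H] [NormedAddCommGroup ℋ] [InnerProductSpace ℂ ℋ] [CompleteSpace ℋ]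

/-- Double cosets. -/
def DC (K' K : Subgroup H) (h : H) : Set H := {x | ∃ a ∈ K', ∃ b ∈ K, x = a * h * b}

theorem self_mem_DC (K' K : Subgroup H) (h : H) : h ∈ DC K' K h :=
  ⟨1, one_mem _, 1, one_mem _, by simp⟩

theorem DC_eq {K' K : Subgroup H} {h h' : H} (hh : h' ∈ DC K' K h) : DC K' K h' = DC K' K h := by
  obtain ⟨a, ha, b, hb, rfl⟩ := hh
  ext x
  constructor
  · rintro ⟨c, hc, d, hd, rfl⟩
    exact ⟨c * a, mul_mem hc ha, b * d, mul_mem hb hd, by group⟩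
  · rintro ⟨c, hc, d, hd, rfl⟩
    exact ⟨c * a⁻¹, mul_mem hc (inv_mem ha), b⁻¹ * d, mul_mem (inv_mem hb) hd, by group⟩

theorem DC_CO {K' K : Subgroup H} (hK' : COS K') (hK : COS K) (h : H) : CO (DC K' K h) := by
  constructor
  · have h1 : DC K' K h = (fun z : H × H => z.1 * h * z.2) '' ((K' : Set H) ×ˢ (K : Set H)) := by
      ext x
      simp only [DC, mem_setOf_eq, mem_image, mem_prod, SetLike.mem_coe, Prod.exists]
      constructor
      · rintro ⟨a, ha, b, hb, rfl⟩; exact ⟨a, b, ⟨ha, hb⟩, rfl⟩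
      · rintro ⟨a, b, ⟨ha, hb⟩, rfl⟩; exact ⟨a, ha, b, hb, rfl⟩
    rw [h1]
    exact (hK'.1.prod hK.1).image (by fun_prop)
  · have h1 : DC K' K h = ⋃ a ∈ (K' : Set H), (fun x => (a * h) * x) '' (K : Set H) := by
      ext x
      simp only [DC, mem_setOf_eq, SetLike.mem_coe, mem_iUnion, mem_image, exists_prop]
      constructor
      · rintro ⟨a, ha, b, hb, rfl⟩; exact ⟨a, ha, b, hb, rfl⟩
      · rintro ⟨a, ha, b, hb, rfl⟩; exact ⟨a, ha, b, hb, rfl⟩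
    rw [h1]
    exact isOpen_biUnion fun a _ => (isOpenMap_mul_left _) _ hK.2

variable {p q : Γ →* H} {S T : Γ →* (ℋ →L[ℂ] ℋ)} {sc : Set (ℋ →L[ℂ] ℋ)} {P : Set H → (ℋ →L[ℂ] ℋ)}

theorem hom_inv_mul (T : Γ →* (ℋ →L[ℂ] ℋ)) (g : Γ) : T g⁻¹ * T g = 1 := by
  rw [← map_mul, inv_mul_cancel, map_one]

theorem hom_mul_inv (T : Γ →* (ℋ →L[ℂ] ℋ)) (g : Γ) : T g * T g⁻¹ = 1 := by
  rw [← map_mul, mul_inv_cancel, map_one]

/-- `P C ≠ 0` for nonempty `C`. -/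
theorem pf_ne_zero (h : PFam p q S T sc P) (hp : DenseRange p)
    (hb : ∀ U : Set H, IsOpen U → (1 : H) ∈ U → ∃ K : Subgroup H, COS K ∧ (K : Set H) ⊆ U)
    (hne : ∃ C, CO C ∧ P C ≠ 0) {C : Set H} (hC : CO C) (hCne : C.Nonempty) : P C ≠ 0 := by
  intro h0
  obtain ⟨h₀, hh₀⟩ := hCne
  obtain ⟨K, hK, hKU⟩ := hb ((fun x => h₀ * x) ⁻¹' C) (hC.2.preimage (continuous_const_mul _))
    (by simpa using hh₀)
  have hE : CO ((fun x => h₀ * x) '' (K : Set H)) := co_left hK _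
  have h1 : P ((fun x => h₀ * x) '' (K : Set H)) = 0 := by
    ext1 ζ
    have hz : P C ζ = 0 := by rw [h0, zero_apply]
    exact pf_kill_mono h hE hC (by rintro _ ⟨k, hk, rfl⟩; exact hKU hk) hz
  obtain ⟨D, hD, hDne⟩ := hne
  apply hDne
  ext1 ζ
  rw [zero_apply]
  have hz : ∀ t : H, P ((fun x => t * x) '' (K : Set H)) ζ = 0 := by
    intro t
    have hU : IsOpen {g : H | t⁻¹ * (g * h₀) ∈ K} :=
      hK.2.preimage (by fun_prop)
    obtain ⟨g, hg⟩ := hp.exists_mem_open hU ⟨t * h₀⁻¹, by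
      simp only [mem_setOf_eq]
      rw [show t⁻¹ * (t * h₀⁻¹ * h₀) = 1 by group]; exact K.one_mem⟩
    have h2 : (fun x => p g * x) '' ((fun x => h₀ * x) '' (K : Set H)) =
        (fun x => t * x) '' (K : Set H) := by
      ext x
      simp only [mem_image, SetLike.mem_coe, exists_exists_and_eq_and]
      have hg' : t⁻¹ * (p g * h₀) ∈ K := hg
      constructor
      · rintro ⟨k, hk, rfl⟩
        exact ⟨t⁻¹ * (p g * h₀) * k, K.mul_mem hg' hk, by group⟩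
      · rintro ⟨k, hk, rfl⟩
        exact ⟨(t⁻¹ * (p g * h₀))⁻¹ * k, K.mul_mem (K.inv_mem hg') hk, by group⟩
    have h3 := h.covS g _ hE
    rw [h1, mul_zero, zero_mul, h2] at h3
    rw [← h3, zero_apply]
  have hz0 : P D ζ = 0 ∨ ζ ≠ 0 := by
    by_cases hζ : ζ = 0
    · left; rw [hζ, map_zero]
    · right; exact hζ
  have hζ0 : ζ = 0 := pf_kill_cover h (D := fun t : H => (fun x => t * x) '' (K : Set H))
    (fun t => co_left hK _) (fun x => ⟨x, 1, K.one_mem, by simp⟩) hz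
  rw [hζ0, map_zero]

end

section main

variable {Γ H ℋ : Type} [Group Γ] [Group H] [TopologicalSpace H] [IsTopologicalGroup H]
  [T2Space H] [NormedAddCommGroup ℋ] [InnerProductSpace ℂ ℋ] [CompleteSpace ℋ]
  {p q₁ q₂ : Γ →* H} {V R₁ R₂ : Γ →* (ℋ →L[ℂ] ℋ)} {P₁ P₂ : Set H → (ℋ →L[ℂ] ℋ)}

/-- The family of compact open sets `C` such that `P₂ C` commutes with `P₁ L`. -/
def AA (P₁ P₂ : Set H → (ℋ →L[ℂ] ℋ)) (L : Subgroup H) : Set (Set H) :=
  {C | CO C ∧ P₂ C * P₁ L = P₁ L * P₂ C}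

/-- translates -/
theorem comm_RC (F₁ : PFam p q₁ V R₁ (range R₂) P₁) (F₂ : PFam p q₂ V R₂ (range R₁) P₂)
    {L : Subgroup H} (hL : COS L) {X : ℋ →L[ℂ] ℋ} (hX : X * P₁ L = P₁ L * X)
    (hXR : ∀ g, R₁ g * X = X * R₁ g) (g : Γ) :
    X * P₁ (RC q₁ L g) = P₁ (RC q₁ L g) * X := by
  have h1 := F₁.covT g (L : Set H) hL
  change R₁ g * P₁ L * R₁ g⁻¹ = P₁ (RC q₁ L g) at h1
  rw [← h1]
  calc X * (R₁ g * P₁ L * R₁ g⁻¹) = (X * R₁ g) * P₁ L * R₁ g⁻¹ := by simp only [mul_assoc]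
    _ = R₁ g * (X * P₁ L) * R₁ g⁻¹ := by rw [← hXR]; simp only [mul_assoc]
    _ = R₁ g * P₁ L * (X * R₁ g⁻¹) := by rw [hX]; simp only [mul_assoc]
    _ = R₁ g * P₁ L * (R₁ g⁻¹ * X) := by rw [hXR]
    _ = _ := by simp only [mul_assoc]

theorem conj_comm {A B U U' : ℋ →L[ℂ] ℋ} (h : A * B = B * A) (hU : U' * U = 1) :
    (U * A * U') * (U * B * U') = (U * B * U') * (U * A * U') := by
  calc (U * A * U') * (U * B * U') = U * A * (U' * U) * B * U' := by simp only [mul_assoc]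
    _ = U * (A * B) * U' := by rw [hU]; simp only [mul_assoc, one_mul]
    _ = U * (B * A) * U' := by rw [h]
    _ = U * B * (U' * U) * A * U' := by rw [hU]; simp only [mul_assoc, one_mul]
    _ = _ := by simp only [mul_assoc]

/-- The finite block. -/
theorem exists_block (a₂ : ∀ g, adjoint (R₂ g) = R₂ g⁻¹) (hp : DenseRange p) (hq₁ : DenseRange q₁) (hq₂ : DenseRange q₂)
    (hb : ∀ U : Set H, IsOpen U → (1 : H) ∈ U → ∃ K : Subgroup H, COS K ∧ (K : Set H) ⊆ U)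
    (F₁ : PFam p q₁ V R₁ (range R₂) P₁) (F₂ : PFam p q₂ V R₂ (range R₁) P₂)
    {L : Subgroup H} (hL : COS L) (x : H) : ∃ C ∈ AA P₁ P₂ L, x ∈ C := by
  classical
  set E : Set H := (fun z => x * z) '' (L : Set H) with hE
  have hEC : CO E := co_left hL _
  have hxE : x ∈ E := ⟨1, L.one_mem, by simp⟩
  set e := P₂ E with he
  by_cases he0 : e = 0
  · exact ⟨E, ⟨hEC, by rw [← he, he0, zero_mul, mul_zero]⟩, hxE⟩
  -- the pinching
  obtain ⟨y, hy, hyl, hyr⟩ := exists_pinch F₁ (D := fun i : Γ ⧸ L.comap q₁ => RC q₁ L i.out)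
    (fun i => RC_CO hL _) RC_disj e
  have hcov : ∀ x : H, ∃ i : Γ ⧸ L.comap q₁, x ∈ RC q₁ L i.out := RC_cov hq₁ hL.2
  have hl : ∀ g, P₁ (RC q₁ L g) * y = P₁ (RC q₁ L g) * e * P₁ (RC q₁ L g) := by
    intro g
    have := hyl (QuotientGroup.mk g)
    rwa [← RC_eq (out_mem g)] at this
  have hr : ∀ g, y * P₁ (RC q₁ L g) = P₁ (RC q₁ L g) * e * P₁ (RC q₁ L g) := by
    intro g
    have := hyr (QuotientGroup.mk g)
    rwa [← RC_eq (out_mem g)] at this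
  have heR₁ : ∀ g, R₁ g * e = e * R₁ g := fun g => F₂.comm _ ⟨g, rfl⟩ _ hEC
  -- a criterion to commute with `y`
  have hcrit : ∀ (U U' : ℋ →L[ℂ] ℋ) (σ : Γ → Γ), U' * U = 1 → U * U' = 1 →
      (∀ g, U * P₁ (RC q₁ L g) * U' = P₁ (RC q₁ L (σ g))) → U * e * U' = e → y * U = U * y := by
    intro U U' σ h1 h2 h3 h4
    have h5 : U' * y * U = y := by
      refine eq_of_cover F₁ (D := fun i : Γ ⧸ L.comap q₁ => RC q₁ L i.out)
        (fun i => RC_CO hL _) hcov fun i => ?_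
      change P₁ (RC q₁ L i.out) * (U' * y * U) = P₁ (RC q₁ L i.out) * y
      have h6 : P₁ (RC q₁ L i.out) * U' = U' * P₁ (RC q₁ L (σ i.out)) := by
        rw [← h3]
        calc P₁ (RC q₁ L i.out) * U' = (U' * U) * P₁ (RC q₁ L i.out) * U' := by rw [h1, one_mul]
          _ = _ := by simp only [mul_assoc]
      have h7 : P₁ (RC q₁ L (σ i.out)) * U = U * P₁ (RC q₁ L i.out) := by
        rw [← h3]
        calc U * P₁ (RC q₁ L i.out) * U' * U = U * P₁ (RC q₁ L i.out) * (U' * U) := by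
              simp only [mul_assoc]
          _ = _ := by rw [h1, mul_one]
      have h8 : U' * e * U = e := by
        calc U' * e * U = U' * (U * e * U') * U := by rw [h4]
          _ = (U' * U) * e * (U' * U) := by simp only [mul_assoc]
          _ = e := by rw [h1, one_mul, mul_one]
      calc P₁ (RC q₁ L i.out) * (U' * y * U) = (P₁ (RC q₁ L i.out) * U') * y * U := by
            simp only [mul_assoc]
        _ = U' * (P₁ (RC q₁ L (σ i.out)) * y) * U := by rw [h6]; simp only [mul_assoc]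
        _ = U' * P₁ (RC q₁ L (σ i.out)) * e * (P₁ (RC q₁ L (σ i.out)) * U) := by
            rw [hl]; simp only [mul_assoc]
        _ = (U' * P₁ (RC q₁ L (σ i.out))) * e * U * P₁ (RC q₁ L i.out) := by
            rw [h7]; simp only [mul_assoc]
        _ = P₁ (RC q₁ L i.out) * (U' * e * U) * P₁ (RC q₁ L i.out) := by
            rw [← h6]; simp only [mul_assoc]
        _ = P₁ (RC q₁ L i.out) * y := by rw [h8, hl]
    calc y * U = (U * U') * y * U := by rw [h2, one_mul]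
      _ = U * (U' * y * U) := by simp only [mul_assoc]
      _ = U * y := by rw [h5]
  -- `y` commutes with `R₁`
  have hyR₁ : ∀ g, y * R₁ g = R₁ g * y := by
    intro g
    refine hcrit _ (R₁ g⁻¹) (fun h => g * h) (hom_inv_mul _ _) (hom_mul_inv _ _) (fun h => ?_) ?_
    · rw [F₁.covT g _ (RC_CO hL _)]
      congr 1
      ext z
      simp only [mem_image]
      constructor
      · rintro ⟨w, hw, rfl⟩
        rw [mem_RC] at hw ⊢
        rw [map_mul]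
        rwa [show w * (q₁ g)⁻¹ * (q₁ g * q₁ h) = w * q₁ h by group]
      · intro hz
        rw [mem_RC, map_mul] at hz
        exact ⟨z * q₁ g, by rw [mem_RC]; rwa [mul_assoc], by group⟩
    · rw [heR₁, mul_assoc, hom_mul_inv, mul_one]
  -- `y` commutes with `R₂ g`, `q₂ g ∈ L`
  have hyR₂ : ∀ g, q₂ g ∈ L → y * R₂ g = R₂ g * y := by
    intro g hg
    refine hcrit _ (R₂ g⁻¹) id (hom_inv_mul _ _) (hom_mul_inv _ _) (fun h => ?_) ?_
    · rw [F₁.comm _ ⟨g, rfl⟩ _ (RC_CO hL _), mul_assoc, hom_mul_inv, mul_one]; rfl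
    · rw [he, F₂.covT g _ hEC]
      congr 1
      ext z
      simp only [hE, mem_image, exists_exists_and_eq_and, SetLike.mem_coe]
      constructor
      · rintro ⟨w, hw, rfl⟩
        exact ⟨w * (q₂ g)⁻¹, L.mul_mem hw (L.inv_mem hg), by group⟩
      · rintro ⟨w, hw, rfl⟩
        exact ⟨w * q₂ g, L.mul_mem hw hg, by group⟩
  -- `y` commutes with `V g`, `p g ∈ K'`
  set K' : Subgroup H := L ⊓ L.map (MulAut.conj x).toMonoidHom with hK'
  have hmem : ∀ z, z ∈ L.map (MulAut.conj x).toMonoidHom ↔ x⁻¹ * z * x ∈ L := by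
    intro z
    simp only [Subgroup.mem_map, MulEquiv.coe_toMonoidHom, MulAut.conj_apply]
    constructor
    · rintro ⟨w, hw, rfl⟩
      rwa [show x⁻¹ * (x * w * x⁻¹) * x = w by group]
    · intro hz
      exact ⟨_, hz, by group⟩
  have hK'C : COS K' := by
    have h1 : (K' : Set H) = (L : Set H) ∩ (fun z => x * z * x⁻¹) '' (L : Set H) := by
      rw [hK', Subgroup.coe_inf]
      congr 1
    have h2 : CO ((fun z => x * z * x⁻¹) '' (L : Set H)) := by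
      have : (fun z => x * z * x⁻¹) '' (L : Set H) =
          (fun z => z * x⁻¹) '' ((fun z => x * z) '' (L : Set H)) := by
        rw [image_image]
      rw [this]
      exact co_right (co_left hL _) _
    change CO (K' : Set H)
    rw [h1]
    exact co_inter hL h2
  have hyV : ∀ g, p g ∈ K' → y * V g = V g * y := by
    intro g hg
    have hg1 : p g ∈ L := (Subgroup.mem_inf.1 hg).1
    have hg2 : x⁻¹ * p g * x ∈ L := (hmem _).1 (Subgroup.mem_inf.1 hg).2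
    refine hcrit _ (V g⁻¹) id (hom_inv_mul _ _) (hom_mul_inv _ _) (fun h => ?_) ?_
    · rw [F₁.covS g _ (RC_CO hL _)]
      congr 1
      ext z
      simp only [mem_image, id]
      constructor
      · rintro ⟨w, hw, rfl⟩
        rw [mem_RC] at hw ⊢
        rw [mul_assoc]
        exact L.mul_mem hg1 hw
      · intro hz
        rw [mem_RC] at hz
        refine ⟨(p g)⁻¹ * z, ?_, by group⟩
        rw [mem_RC, mul_assoc]
        exact L.mul_mem (L.inv_mem hg1) hz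
    · rw [he, F₂.covS g _ hEC]
      congr 1
      ext z
      simp only [hE, mem_image, exists_exists_and_eq_and, SetLike.mem_coe]
      constructor
      · rintro ⟨w, hw, rfl⟩
        exact ⟨x⁻¹ * p g * x * w, L.mul_mem hg2 hw, by group⟩
      · rintro ⟨w, hw, rfl⟩
        exact ⟨(x⁻¹ * p g * x)⁻¹ * w, L.mul_mem (L.inv_mem hg2) hw, by group⟩
  have hQ : Qs p q₂ V R₂ (range R₁) K' L y :=
    ⟨hyV, hyR₂, by rintro _ ⟨g, rfl⟩; exact hyR₁ g⟩
  have hmax := F₂.max K' L hK'C hL y hQ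
  choose c hc using hmax
  change ∀ h, y * P₂ (DC K' L h) = c h • P₂ (DC K' L h) at hc
  have hDC : ∀ h, CO (DC K' L h) := DC_CO hK'C hL
  -- nonvanishing
  have hnz : ∀ {C : Set H}, CO C → C.Nonempty → P₂ C ≠ 0 := fun hC hne =>
    pf_ne_zero F₂ hp hb ⟨E, hEC, he0⟩ hC hne
  have hvec : ∀ h : H, ∃ v : ℋ, P₂ (DC K' L h) v = v ∧ v ≠ 0 := by
    intro h
    have h1 := hnz (hDC h) ⟨h, self_mem_DC _ _ _⟩
    obtain ⟨w, hw⟩ : ∃ w, P₂ (DC K' L h) w ≠ 0 := by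
      by_contra hno
      push Not at hno
      exact h1 (by ext1 w; rw [hno w, zero_apply])
    exact ⟨P₂ (DC K' L h) w, by rw [pf_apply_mul F₂ (hDC h) (hDC h), inter_self], hw⟩
  have hcw : ∀ h v, P₂ (DC K' L h) v = v → y v = c h • v := by
    intro h v hv
    have := congrArg (fun X : ℋ →L[ℂ] ℋ => X v) (hc h)
    change y (P₂ (DC K' L h) v) = c h • P₂ (DC K' L h) v at this
    rwa [hv] at this
  have hceq : ∀ h h', h' ∈ DC K' L h → c h' = c h := by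
    intro h h' hh
    obtain ⟨v, hv, hv0⟩ := hvec h
    have h1 := hcw h v hv
    have h2 := hcw h' v (by rw [DC_eq hh]; exact hv)
    rw [h1] at h2
    exact (smul_left_injective ℂ hv0 h2).symm
  -- `y` is positive
  have hpos : ∀ v, HasSum (fun i : Γ ⧸ L.comap q₁ => ‖e (P₁ (RC q₁ L i.out) v)‖ ^ 2)
      (⟪v, y v⟫_ℂ).re := by
    intro v
    have h1 := ((hy v).mapL (innerSL ℂ v)).mapL Complex.reCLM
    simp only [innerSL_apply_apply, Complex.reCLM_apply] at h1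
    have h3 : (fun i : Γ ⧸ L.comap q₁ => ‖e (P₁ (RC q₁ L i.out) v)‖ ^ 2) =
        fun i => (⟪v, P₁ (RC q₁ L i.out) (e (P₁ (RC q₁ L i.out) v))⟫_ℂ).re := by
      funext i
      rw [← pf_symm F₁ (RC_CO hL _)]
      obtain ⟨w, hw⟩ : ∃ w, w = P₁ (RC q₁ L i.out) v := ⟨_, rfl⟩
      rw [← hw, he]
      have h2 : P₂ E w = P₂ E (P₂ E w) := by rw [pf_apply_mul F₂ hEC hEC, inter_self]
      rw [h2, ← pf_symm F₂ hEC, ← h2, inner_self_eq_norm_sq_to_K]
      norm_cast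
    rw [h3]
    exact h1
  have hre : ∀ h, ∀ v, P₂ (DC K' L h) v = v → v ≠ 0 → (c h).re = (⟪v, y v⟫_ℂ).re / ‖v‖ ^ 2 ∧
      (⟪v, y v⟫_ℂ) = c h * (‖v‖ ^ 2 : ℝ) := by
    intro h v hv hv0
    have h1 : ⟪v, y v⟫_ℂ = c h * (‖v‖ ^ 2 : ℝ) := by
      rw [hcw h v hv, inner_smul_right, inner_self_eq_norm_sq_to_K]
      norm_cast
    refine ⟨?_, h1⟩
    rw [h1, Complex.re_mul_ofReal]
    have : ‖v‖ ^ 2 ≠ 0 := by positivity
    field_simp
  -- `y` is self adjoint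
  have hysa : adjoint y = y := by
    refine eq_of_cover F₁ (D := fun i : Γ ⧸ L.comap q₁ => RC q₁ L i.out)
      (fun i => RC_CO hL _) hcov fun i => ?_
    change P₁ (RC q₁ L i.out) * adjoint y = P₁ (RC q₁ L i.out) * y
    have h1 := congrArg adjoint (hr i.out)
    have h2 : ∀ A B : ℋ →L[ℂ] ℋ, adjoint (A * B) = adjoint B * adjoint A := fun A B => by
      rw [← star_eq_adjoint, star_mul]; rfl
    rw [h2, h2, h2, F₁.adj _ (RC_CO hL _), F₂.adj _ hEC, ← mul_assoc] at h1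
    rw [h1, hl]
  have hyy : ∀ v w : ℋ, ⟪y v, w⟫_ℂ = ⟪v, y w⟫_ℂ := fun v w => by
    rw [← adjoint_inner_right, hysa]
  have him : ∀ h, (c h).im = 0 := by
    intro h
    obtain ⟨v, hv, hv0⟩ := hvec h
    have h1 := (hre h v hv hv0).2
    have h2 : (⟪v, y v⟫_ℂ).im = 0 := by
      have h3 : ⟪y v, v⟫_ℂ = ⟪v, y v⟫_ℂ := hyy v v
      rw [← inner_conj_symm] at h3
      exact Complex.conj_eq_iff_im.mp h3
    rw [h1, Complex.im_mul_ofReal] at h2
    have : ‖v‖ ^ 2 ≠ 0 := by positivity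
    exact (mul_eq_zero.mp h2).resolve_right this
  have hcomm : ∀ h, P₂ (DC K' L h) * y = y * P₂ (DC K' L h) := by
    intro h
    have h1 := congrArg adjoint (hc h)
    have h2 : ∀ A B : ℋ →L[ℂ] ℋ, adjoint (A * B) = adjoint B * adjoint A := fun A B => by
      rw [← star_eq_adjoint, star_mul]; rfl
    have h3 : adjoint (c h • P₂ (DC K' L h)) = c h • P₂ (DC K' L h) := by
      rw [map_smulₛₗ, F₂.adj _ (hDC h)]
      congr 1
      exact Complex.conj_eq_iff_im.mpr (him h)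
    rw [h2, h3, F₂.adj _ (hDC h), hysa] at h1
    rw [h1, hc]
  -- `c x > 0`
  have hDCx : DC K' L x = E := by
    ext z
    constructor
    · rintro ⟨a, ha, b, hb', rfl⟩
      have h1 := (hmem a).1 (Subgroup.mem_inf.1 ha).2
      exact ⟨x⁻¹ * a * x * b, L.mul_mem h1 hb', by group⟩
    · rintro ⟨b, hb', rfl⟩
      exact ⟨1, one_mem _, b, hb', by simp⟩
  have hcx : 0 < (c x).re := by
    obtain ⟨v, hv, hv0⟩ := hvec x
    have h0 : 0 ≤ (c x).re := by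
      rw [(hre x v hv hv0).1]
      exact div_nonneg ((hpos v).nonneg fun i => by positivity) (by positivity)
    refine lt_of_le_of_ne h0 fun hz => hv0 ?_
    have h1 : (⟪v, y v⟫_ℂ).re = 0 := by
      have := (hre x v hv hv0).1
      rw [← hz] at this
      have h2 : ‖v‖ ^ 2 ≠ 0 := by positivity
      field_simp at this
      linarith
    have h2 := hpos v
    rw [h1] at h2
    have h3 := (hasSum_zero_iff_of_nonneg (fun i => by positivity)).1 h2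
    have hev : e v = v := by rw [he, ← hDCx]; exact hv
    refine pf_kill_cover F₁ (D := fun i : Γ ⧸ L.comap q₁ => RC q₁ L i.out)
      (fun i => RC_CO hL _) hcov fun i => ?_
    have h4 : e (P₁ (RC q₁ L i.out) v) = 0 := by
      have := congrFun h3 i
      simpa using this
    have h6 : (⟪P₁ (RC q₁ L i.out) v, P₁ (RC q₁ L i.out) v⟫_ℂ) = 0 := by
      rw [pf_symm F₁ (RC_CO hL _), pf_apply_mul F₁ (RC_CO hL _) (RC_CO hL _), inter_self]
      nth_rewrite 1 [← hev]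
      rw [he, pf_symm F₂ hEC, ← he, h4, inner_zero_right]
    exact inner_self_eq_zero.1 h6
  -- the block
  set Sx : Set H := {h | c h = c x} with hSx
  have hSxU : ∀ h, h ∈ Sx → DC K' L h ⊆ Sx := by
    intro h hh z hz
    change c z = c x
    rw [hceq h z hz]; exact hh
  have hSxU' : ∀ h, h ∉ Sx → Disjoint (DC K' L h) Sx := by
    intro h hh
    rw [Set.disjoint_left]
    intro z hz hzS
    apply hh
    change c h = c x
    rw [← hceq h z hz]; exact hzS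
  have hSo : IsOpen Sx := by
    rw [isOpen_iff_mem_nhds]
    intro h hh
    exact mem_of_superset ((hDC h).2.mem_nhds (self_mem_DC _ _ _)) (hSxU h hh)
  have hSc : IsClosed Sx := by
    rw [← isOpen_compl_iff, isOpen_iff_mem_nhds]
    intro h hh
    refine mem_of_superset ((hDC h).2.mem_nhds (self_mem_DC _ _ _)) ?_
    exact fun z hz hzS => Set.disjoint_left.1 (hSxU' h hh) hz hzS
  -- the integral over the second target
  have hbound : ∀ (F : Finset (Γ ⧸ L.comap q₂)) (ζ : ℋ),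
      ∑ γ ∈ F, (⟪R₂ (γ.out)⁻¹ ζ, y (R₂ (γ.out)⁻¹ ζ)⟫_ℂ).re ≤ ‖ζ‖ ^ 2 := by
    intro F ζ
    have h1 : HasSum (fun i : Γ ⧸ L.comap q₁ =>
        ∑ γ ∈ F, ‖e (P₁ (RC q₁ L i.out) (R₂ (γ.out)⁻¹ ζ))‖ ^ 2)
        (∑ γ ∈ F, (⟪R₂ (γ.out)⁻¹ ζ, y (R₂ (γ.out)⁻¹ ζ)⟫_ℂ).re) :=
      hasSum_sum fun γ _ => hpos _
    have hR₂n : ∀ g (v : ℋ), ‖R₂ g v‖ = ‖v‖ := by
      intro g v
      have h1 : ⟪R₂ g v, R₂ g v⟫_ℂ = ⟪v, v⟫_ℂ := by
        rw [← adjoint_inner_right, a₂]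
        exact congrArg (fun X : ℋ →L[ℂ] ℋ => ⟪v, X v⟫_ℂ) (hom_inv_mul R₂ g)
      rw [inner_self_eq_norm_sq_to_K, inner_self_eq_norm_sq_to_K] at h1
      have h2 : ‖R₂ g v‖ ^ 2 = ‖v‖ ^ 2 := by exact_mod_cast h1
      exact (pow_left_inj₀ (norm_nonneg _) (norm_nonneg _) two_ne_zero).mp h2
    have h2 : ∀ i : Γ ⧸ L.comap q₁, ∑ γ ∈ F, ‖e (P₁ (RC q₁ L i.out) (R₂ (γ.out)⁻¹ ζ))‖ ^ 2 ≤
        ‖P₁ (RC q₁ L i.out) ζ‖ ^ 2 := by
      intro i
      have h3 : ∀ γ : Γ ⧸ L.comap q₂, ‖e (P₁ (RC q₁ L i.out) (R₂ (γ.out)⁻¹ ζ))‖ =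
          ‖P₂ ((fun z => x * z) '' RC q₂ L γ.out) (P₁ (RC q₁ L i.out) ζ)‖ := by
        intro γ
        have h4 : P₂ ((fun z => x * z) '' RC q₂ L γ.out) = R₂ γ.out * e * R₂ (γ.out)⁻¹ := by
          rw [he, F₂.covT _ _ hEC]
          congr 1
          ext z
          simp only [RC, hE, mem_image, exists_exists_and_eq_and, SetLike.mem_coe, mul_assoc]
        have h5 : R₂ (γ.out)⁻¹ * P₁ (RC q₁ L i.out) = P₁ (RC q₁ L i.out) * R₂ (γ.out)⁻¹ :=
          F₁.comm _ ⟨_, rfl⟩ _ (RC_CO hL _)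
        have h6 : P₁ (RC q₁ L i.out) (R₂ (γ.out)⁻¹ ζ) = R₂ (γ.out)⁻¹ (P₁ (RC q₁ L i.out) ζ) :=
          (congrArg (fun X : ℋ →L[ℂ] ℋ => X ζ) h5).symm
        rw [h6, h4]
        change _ = ‖R₂ γ.out (e (R₂ (γ.out)⁻¹ (P₁ (RC q₁ L i.out) ζ)))‖
        rw [hR₂n]
      simp only [h3]
      refine pf_norm_sum_le F₂ (D := fun γ : Γ ⧸ L.comap q₂ => (fun z => x * z) '' RC q₂ L γ.out)
        (fun γ => co_left (RC_CO hL _) _) ?_ _ F
      intro γ γ' hne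
      exact (Set.disjoint_image_iff (mul_right_injective x)).2 (RC_disj hne)
    have h7 : Summable fun i : Γ ⧸ L.comap q₁ => ‖P₁ (RC q₁ L i.out) ζ‖ ^ 2 :=
      summable_of_sum_le (fun i => by positivity) (c := ‖ζ‖ ^ 2)
        (pf_norm_sum_le F₁ (fun i => RC_CO hL _) RC_disj ζ)
    refine (hasSum_le h2 h1 h7.hasSum).trans ?_
    exact h7.tsum_le_of_sum_le (pf_norm_sum_le F₁ (fun i => RC_CO hL _) RC_disj ζ)
  -- finitely many cosets
  have hfin : {γ : Γ ⧸ L.comap q₂ | q₂ γ.out ∈ Sx}.Finite := by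
    have hK'ne := hnz (C := (K' : Set H)) hK'C ⟨1, K'.one_mem⟩
    obtain ⟨w, hw⟩ : ∃ w, P₂ (K' : Set H) w ≠ 0 := by
      by_contra hno
      push Not at hno
      exact hK'ne (by ext1 w; rw [hno w, zero_apply])
    obtain ⟨ζ, hζ⟩ : ∃ ζ, ζ = P₂ (K' : Set H) w := ⟨_, rfl⟩
    have hζ1 : P₂ (K' : Set H) ζ = ζ := by
      rw [hζ, pf_apply_mul F₂ hK'C hK'C, inter_self]
    have hζ0 : ζ ≠ 0 := by rw [hζ]; exact hw
    have hnorm : ∀ g, ‖R₂ g ζ‖ ^ 2 = ‖ζ‖ ^ 2 := by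
      intro g
      have h1 : ⟪R₂ g ζ, R₂ g ζ⟫_ℂ = ⟪ζ, ζ⟫_ℂ := by
        rw [← adjoint_inner_right, a₂]
        exact congrArg (fun X : ℋ →L[ℂ] ℋ => ⟪ζ, X ζ⟫_ℂ) (hom_inv_mul R₂ g)
      rw [inner_self_eq_norm_sq_to_K, inner_self_eq_norm_sq_to_K] at h1
      exact_mod_cast h1
    have hval : ∀ γ : Γ ⧸ L.comap q₂, q₂ γ.out ∈ Sx →
        (⟪R₂ (γ.out)⁻¹ ζ, y (R₂ (γ.out)⁻¹ ζ)⟫_ℂ).re = (c x).re * ‖ζ‖ ^ 2 := by
      intro γ hγ
      have h1 : P₂ (DC K' L (q₂ γ.out)) (R₂ (γ.out)⁻¹ ζ) = R₂ (γ.out)⁻¹ ζ := by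
        have h2 := F₂.covT (γ.out)⁻¹ (K' : Set H) hK'C
        rw [inv_inv] at h2
        have h3 : CO ((fun z => z * (q₂ (γ.out)⁻¹)⁻¹) '' (K' : Set H)) := co_right hK'C _
        have h4 : (fun z => z * (q₂ (γ.out)⁻¹)⁻¹) '' (K' : Set H) ⊆ DC K' L (q₂ γ.out) := by
          rintro _ ⟨a, ha, rfl⟩
          exact ⟨a, ha, 1, one_mem _, by simp⟩
        have h5 : P₂ ((fun z => z * (q₂ (γ.out)⁻¹)⁻¹) '' (K' : Set H)) (R₂ (γ.out)⁻¹ ζ) =
            R₂ (γ.out)⁻¹ ζ := by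
          rw [← h2]
          change R₂ (γ.out)⁻¹ (P₂ (K' : Set H) (R₂ γ.out (R₂ (γ.out)⁻¹ ζ))) = _
          have h6 : R₂ γ.out (R₂ (γ.out)⁻¹ ζ) = ζ :=
            congrArg (fun X : ℋ →L[ℂ] ℋ => X ζ) (hom_mul_inv R₂ γ.out)
          rw [h6, hζ1]
        rw [← h5, pf_apply_mul F₂ (hDC _) h3, inter_eq_right.mpr h4]
      have h7 := hcw _ _ h1
      have h8 : c (q₂ γ.out) = c x := hγ
      rw [h7, inner_smul_right, inner_self_eq_norm_sq_to_K, h8]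
      have h9 := hnorm (γ.out)⁻¹
      have h10 : ((‖R₂ (γ.out)⁻¹ ζ‖ : ℂ)) ^ 2 = ((‖ζ‖ ^ 2 : ℝ) : ℂ) := by
        rw [← h9]; push_cast; rfl
      change (c x * ((‖R₂ (γ.out)⁻¹ ζ‖ : ℂ)) ^ 2).re = _
      rw [h10, Complex.re_mul_ofReal]
    by_contra hinf
    obtain ⟨n, hn⟩ := exists_nat_gt (1 / (c x).re)
    obtain ⟨F, hF, hFc⟩ := Set.Infinite.exists_subset_card_eq hinf n
    have h1 := hbound F ζ
    rw [Finset.sum_congr rfl fun γ hγ => hval γ (hF hγ), Finset.sum_const, hFc, nsmul_eq_mul] at h1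
    have h2 : 0 < ‖ζ‖ ^ 2 := by positivity
    have h3 : 1 < (n : ℝ) * (c x).re := by
      rw [div_lt_iff₀ hcx] at hn
      exact hn
    nlinarith
  have hSx_sub : Sx ⊆ ⋃ γ ∈ {γ : Γ ⧸ L.comap q₂ | q₂ γ.out ∈ Sx},
      (fun z => q₂ γ.out * z) '' (L : Set H) := by
    intro h hh
    have hU : IsOpen ((fun z => h * z) '' (L : Set H)) := (co_left hL h).2
    obtain ⟨g, hg⟩ := hq₂.exists_mem_open hU ⟨h, 1, L.one_mem, by simp⟩
    obtain ⟨l, hl', hg'⟩ := hg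
    have hg'' : q₂ g = h * l := hg'.symm
    have h1 := out_mem (Θ := L.comap q₂) g
    rw [Subgroup.mem_comap, map_mul, map_inv] at h1
    obtain ⟨w, hwL, h2⟩ : ∃ w ∈ L, q₂ ((QuotientGroup.mk g : Γ ⧸ L.comap q₂).out) = h * w := by
      refine ⟨l * ((q₂ g)⁻¹ * q₂ ((QuotientGroup.mk g : Γ ⧸ L.comap q₂).out)),
        L.mul_mem hl' h1, ?_⟩
      rw [← mul_assoc, ← hg'', mul_inv_cancel_left]
    refine mem_biUnion (x := (QuotientGroup.mk g : Γ ⧸ L.comap q₂)) ?_ ?_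
    · change q₂ _ ∈ Sx
      refine hSxU h hh ?_
      rw [h2]
      exact ⟨1, one_mem _, _, hwL, by simp⟩
    · refine ⟨w⁻¹, L.inv_mem hwL, ?_⟩
      change q₂ _ * w⁻¹ = h
      rw [h2, mul_inv_cancel_right]
  have hSxC : CO Sx := by
    refine ⟨?_, hSo⟩
    refine IsCompact.of_isClosed_subset ?_ hSc hSx_sub
    exact hfin.isCompact_biUnion fun γ _ => (co_left hL _).1
  -- `P₂ Sx` is the eigenprojection
  have hx : x ∈ Sx := rfl
  have hk1 : y * P₂ Sx = c x • P₂ Sx := by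
    refine eq_of_cover F₂ (D := fun h : H => DC K' L h) hDC (fun h => ⟨h, self_mem_DC _ _ _⟩)
      fun h => ?_
    change P₂ (DC K' L h) * (y * P₂ Sx) = P₂ (DC K' L h) * (c x • P₂ Sx)
    rw [← mul_assoc, hcomm, mul_assoc, mul_smul_comm, F₂.mul _ _ (hDC h) hSxC]
    by_cases hh : h ∈ Sx
    · have h1 : c h = c x := hh
      rw [inter_eq_left.mpr (hSxU h hh), hc, h1]
    · rw [(hSxU' h hh).inter_eq, pf_empty F₂, mul_zero, smul_zero]
  have hk2 : ∀ v, y v = c x • v → P₂ Sx v = v := by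
    intro v hv
    rw [eq_comm, ← sub_eq_zero]
    refine pf_kill_cover F₂ (D := fun h : H => DC K' L h) hDC (fun h => ⟨h, self_mem_DC _ _ _⟩)
      fun h => ?_
    change P₂ (DC K' L h) (v - P₂ Sx v) = 0
    rw [map_sub, pf_apply_mul F₂ (hDC h) hSxC]
    by_cases hh : h ∈ Sx
    · rw [inter_eq_left.mpr (hSxU h hh), sub_self]
    · rw [(hSxU' h hh).inter_eq, pf_empty F₂, zero_apply, sub_zero]
      have h1 : P₂ (DC K' L h) (y v) = y (P₂ (DC K' L h) v) :=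
        congrArg (fun X : ℋ →L[ℂ] ℋ => X v) (hcomm h)
      have h2 : y (P₂ (DC K' L h) v) = c h • P₂ (DC K' L h) v :=
        congrArg (fun X : ℋ →L[ℂ] ℋ => X v) (hc h)
      rw [hv, map_smul, h2] at h1
      have h3 : (c x - c h) • P₂ (DC K' L h) v = 0 := by rw [sub_smul, h1, sub_self]
      rcases smul_eq_zero.1 h3 with h4 | h4
      · exact absurd (sub_eq_zero.1 h4).symm hh
      · exact h4
  have hyL : P₁ (L : Set H) * y = y * P₁ (L : Set H) := by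
    have h1 : RC q₁ L 1 = (L : Set H) := by
      ext z; rw [mem_RC, map_one, mul_one]; rfl
    have h2 := hl 1
    have h3 := hr 1
    rw [h1] at h2 h3
    rw [h2, h3]
  have hfin1 : P₂ Sx * P₁ L * P₂ Sx = P₁ L * P₂ Sx := by
    ext1 v
    change P₂ Sx (P₁ L (P₂ Sx v)) = P₁ L (P₂ Sx v)
    apply hk2
    have h1 : y (P₂ Sx v) = c x • P₂ Sx v := congrArg (fun X : ℋ →L[ℂ] ℋ => X v) hk1
    have h2 : y (P₁ L (P₂ Sx v)) = P₁ L (y (P₂ Sx v)) :=
      (congrArg (fun X : ℋ →L[ℂ] ℋ => X (P₂ Sx v)) hyL).symm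
    rw [h2, h1, map_smul]
  have hfin2 : P₂ Sx * P₁ L * P₂ Sx = P₂ Sx * P₁ L := by
    have h1 := congrArg adjoint hfin1
    have h2 : ∀ A B : ℋ →L[ℂ] ℋ, adjoint (A * B) = adjoint B * adjoint A := fun A B => by
      rw [← star_eq_adjoint, star_mul]; rfl
    rw [h2, h2, h2, F₂.adj _ hSxC, F₁.adj _ hL, ← mul_assoc] at h1
    exact h1
  exact ⟨Sx, ⟨hSxC, by rw [← hfin2, hfin1]⟩, hx⟩

/-- An operator which commutes with `R₁` and `P₁ L` commutes with `P₁ E` for all left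
`L`-invariant `E`. -/
theorem comm_inv (hq₁ : DenseRange q₁) (F₁ : PFam p q₁ V R₁ (range R₂) P₁)
    (F₂ : PFam p q₂ V R₂ (range R₁) P₂)
    {L : Subgroup H} (hL : COS L) {X : ℋ →L[ℂ] ℋ} (hX : X * P₁ L = P₁ L * X)
    (hXR : ∀ g, R₁ g * X = X * R₁ g) {E : Set H} (hE : CO E)
    (hLE : ∀ l ∈ L, ∀ z ∈ E, l * z ∈ E) : X * P₁ E = P₁ E * X := by
  refine eq_of_cover F₁ (D := fun i : Γ ⧸ L.comap q₁ => RC q₁ L i.out)
    (fun i => RC_CO hL _) (RC_cov hq₁ hL.2) fun i => ?_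
  change P₁ (RC q₁ L i.out) * (X * P₁ E) = P₁ (RC q₁ L i.out) * (P₁ E * X)
  have h1 := comm_RC F₁ F₂ hL hX hXR i.out
  rw [← mul_assoc, ← h1, mul_assoc, ← mul_assoc (P₁ (RC q₁ L i.out)), F₁.mul _ _ (RC_CO hL _) hE]
  by_cases hne : (RC q₁ L i.out ∩ E).Nonempty
  · obtain ⟨z, hz1, hz2⟩ := hne
    have h2 : RC q₁ L i.out ⊆ E := by
      intro w hw
      rw [mem_RC] at hz1 hw
      have h3 := hLE (w * q₁ i.out * (z * q₁ i.out)⁻¹) (L.mul_mem hw (L.inv_mem hz1)) z hz2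
      rwa [show w * q₁ i.out * (z * q₁ i.out)⁻¹ * z = w by group] at h3
    rw [inter_eq_left.mpr h2, h1]
  · rw [not_nonempty_iff_eq_empty.1 hne, pf_empty F₁, mul_zero, zero_mul]

theorem fam (a₂ : ∀ g, adjoint (R₂ g) = R₂ g⁻¹) (hp : DenseRange p) (hq₁ : DenseRange q₁)
    (hq₂ : DenseRange q₂)
    (hb : ∀ U : Set H, IsOpen U → (1 : H) ∈ U → ∃ K : Subgroup H, COS K ∧ (K : Set H) ⊆ U)
    (F₁ : PFam p q₁ V R₁ (range R₂) P₁) (F₂ : PFam p q₂ V R₂ (range R₁) P₂) :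
    Fam p.range q₂.range (AA P₁ P₂) := by
  have hR₁ : ∀ C, CO C → ∀ g, R₁ g * P₂ C = P₂ C * R₁ g := fun C hC g => F₂.comm _ ⟨g, rfl⟩ C hC
  have hR₂ : ∀ C, CO C → ∀ g, R₂ g * P₁ C = P₁ C * R₂ g := fun C hC g => F₁.comm _ ⟨g, rfl⟩ C hC
  have hdiff : ∀ {L : Subgroup H} {C C' : Set H}, C ∈ AA P₁ P₂ L → C' ∈ AA P₁ P₂ L →
      C \ C' ∈ AA P₁ P₂ L := by
    rintro L C C' ⟨hC, h1⟩ ⟨hC', h2⟩
    refine ⟨co_diff hC hC', ?_⟩
    have h3 := F₂.add (C ∩ C') (C \ C') (co_inter hC hC') (co_diff hC hC')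
      (disjoint_sdiff_right.mono_left inter_subset_right)
    rw [inter_union_diff, ← F₂.mul _ _ hC hC'] at h3
    have h4 : P₂ (C \ C') = P₂ C - P₂ C * P₂ C' := (sub_eq_of_eq_add' h3).symm
    rw [h4, sub_mul, mul_sub, h1, mul_assoc, h2, ← mul_assoc, h1, mul_assoc]
  refine ⟨fun h => h.1.1, fun h => h.1.2, fun L => ⟨co_empty, ?_⟩, ?_, ?_, hdiff, ?_, ?_, ?_, ?_⟩
  · rw [pf_empty F₂, zero_mul, mul_zero]
  · rintro L C C' ⟨hC, h1⟩ ⟨hC', h2⟩
    exact ⟨co_inter hC hC', by rw [← F₂.mul _ _ hC hC', mul_assoc, h2, ← mul_assoc, h1, mul_assoc]⟩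
  · rintro L C C' hA hA'
    have h3 := hdiff hA' hA
    refine ⟨co_union hA.1 hA'.1, ?_⟩
    have h4 := F₂.add C (C' \ C) hA.1 h3.1 disjoint_sdiff_right
    rw [union_diff_self] at h4
    rw [h4, add_mul, mul_add, hA.2, h3.2]
  · rintro L C c1 o1 ⟨hC, h1⟩ k ⟨g, rfl⟩
    have hL : CO (L : Set H) := ⟨c1, o1⟩
    have h2 : {x | x * q₂ g ∈ C} = (fun x => x * (q₂ g)⁻¹) '' C := by
      ext x
      simp only [mem_setOf_eq, mem_image]
      constructor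
      · intro h; exact ⟨_, h, by group⟩
      · rintro ⟨w, hw, rfl⟩; simpa using hw
    rw [h2]
    refine ⟨co_right hC _, ?_⟩
    rw [← F₂.covT g C hC]
    calc R₂ g * P₂ C * R₂ g⁻¹ * P₁ L = R₂ g * P₂ C * (R₂ g⁻¹ * P₁ L) := by rw [mul_assoc]
      _ = R₂ g * (P₂ C * P₁ L) * R₂ g⁻¹ := by rw [hR₂ _ hL]; simp only [mul_assoc]
      _ = (R₂ g * P₁ L) * P₂ C * R₂ g⁻¹ := by rw [h1]; simp only [mul_assoc]
      _ = P₁ L * R₂ g * P₂ C * R₂ g⁻¹ := by rw [hR₂ _ hL]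
      _ = _ := by simp only [mul_assoc]
  · intro L L' c1 o1 c2 hLL C hA
    have hL : COS L := ⟨c2, Subgroup.isOpen_mono hLL o1⟩
    exact ⟨hA.1, comm_inv hq₁ F₁ F₂ ⟨c1, o1⟩ hA.2 (fun g => hR₁ _ hA.1 g) hL
      fun l hl z hz => L.mul_mem (hLL hl) hz⟩
  · rintro L C c1 o1 ⟨hC, h1⟩ _ ⟨γ, rfl⟩
    have h2 : {x | (p γ)⁻¹ * x ∈ C} = (fun x => p γ * x) '' C := by
      ext x
      simp only [mem_setOf_eq, mem_image]
      constructor
      · intro h; exact ⟨_, h, by group⟩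
      · rintro ⟨w, hw, rfl⟩; simpa using hw
    rw [h2]
    have hgC : CO ((fun x => p γ * x) '' C) := co_left hC _
    refine ⟨hgC, ?_⟩
    have hLc : CO (L : Set H) := ⟨c1, o1⟩
    have hgL : CO ((fun x => p γ * x) '' (L : Set H)) := co_left hLc _
    -- `P₂ (g C)` commutes with `P₁ (g L)`
    have h3 : P₂ ((fun x => p γ * x) '' C) * P₁ ((fun x => p γ * x) '' (L : Set H)) =
        P₁ ((fun x => p γ * x) '' (L : Set H)) * P₂ ((fun x => p γ * x) '' C) := by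
      rw [← F₂.covS γ C hC, ← F₁.covS γ _ hLc]
      exact conj_comm h1 (hom_inv_mul _ _)
    obtain ⟨δ, hδ⟩ := hq₁.exists_mem_open hgL.2 ⟨p γ, 1, L.one_mem, by simp⟩
    obtain ⟨l, hl, hl'⟩ := hδ
    have hl'' : q₁ δ = p γ * l := hl'.symm
    have h4 : (fun x => x * (q₁ δ)⁻¹) '' ((fun x => p γ * x) '' (L : Set H)) =
        ((L.map (MulAut.conj (p γ)).toMonoidHom : Subgroup H) : Set H) := by
      ext z
      simp only [mem_image, exists_exists_and_eq_and, SetLike.mem_coe, Subgroup.mem_map,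
        MulEquiv.coe_toMonoidHom, MulAut.conj_apply]
      constructor
      · rintro ⟨w, hw, rfl⟩
        exact ⟨w * l⁻¹, L.mul_mem hw (L.inv_mem hl), by rw [hl'']; group⟩
      · rintro ⟨w, hw, rfl⟩
        exact ⟨w * l, L.mul_mem hw hl, by rw [hl'']; group⟩
    rw [← h4, ← F₁.covT δ _ hgL]
    have h5 : P₂ ((fun x => p γ * x) '' C) =
        R₁ δ * P₂ ((fun x => p γ * x) '' C) * R₁ δ⁻¹ := by
      rw [hR₁ _ hgC, mul_assoc, hom_mul_inv, mul_one]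
    rw [h5]
    exact conj_comm h3 (hom_inv_mul _ _)
  · intro L c1 o1 x
    exact exists_block a₂ hp hq₁ hq₂ hb F₁ F₂ ⟨c1, o1⟩ x

/-- **[B-7]** The projections of the two legs at the same place commute. -/
theorem seven (hG : GoodGrp H) (a₂ : ∀ g, adjoint (R₂ g) = R₂ g⁻¹) (hp : DenseRange p)
    (hq₁ : DenseRange q₁) (hq₂ : DenseRange q₂)
    (F₁ : PFam p q₁ V R₁ (range R₂) P₁) (F₂ : PFam p q₂ V R₂ (range R₁) P₂) :
    ∀ C D, CO C → CO D → P₁ C * P₂ D = P₂ D * P₁ C := by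
  have hfam := fam a₂ hp hq₁ hq₂ hG.basis F₁ F₂
  have hL : ∀ L : Subgroup H, COS L → ∀ D, CO D → P₂ D * P₁ L = P₁ L * P₂ D := fun L hL D hD =>
    (hfam.mem_all hp hq₂ hG.bdd_normal hL.1 hL.2 hD.1 hD.2).2
  intro C D hC hD
  obtain ⟨W, hW, hWC⟩ : ∃ W ∈ 𝓝 (1 : H), W * C ⊆ C :=
    compact_open_separated_mul_left hC.1 hC.2 subset_rfl
  obtain ⟨U, hUW, hUo, hU1⟩ := mem_nhds_iff.1 hW
  obtain ⟨L, hLc, hLU⟩ := hG.basis U hUo hU1
  exact (comm_inv hq₁ F₁ F₂ hLc (hL L hLc D hD) (fun g => F₂.comm _ ⟨g, rfl⟩ D hD) hC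
    fun l hl z hz => hWC (Set.mul_mem_mul (hUW (hLU hl)) hz)).symm

end main

end Vale.Agent.P092.H941
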