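import Vale.Agent.P092.SR.Blocks
import Vale.Agent.P092.H941.Seven

/-!
P092, project B, block [C7]: the wrapper of `H941.seven` in the letters of `SR/Blocks.lean`.
-/

set_option linter.all false

namespace Vale.Agent.P092.H941

theorem c7Stmt : SR.C7Stmt := by
  intro ι Γ H₁ H₂ ℋ _ _ _ _ _ _ _ _ _ V R₁ R₂ ξ p₁ q₁ r₁ p₂ q₂ r₂ hT h₁ h₂ hp hq hr P Q F₁ F₂ C D
    hC hD
  haveI := h₁.top
  haveI := h₁.t2
  exact seven h₁ hT.adj₂ hp.dense₁ hq.dense₁ hr.dense₁ F₁ F₂ C D hC hD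

end Vale.Agent.P092.H941
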