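import Vale.Agent.P092.SR.BlocksR
import Vale.Agent.P092.H793.Lat

/-!
P092, project B: if `Γ → G₁ × G₂` contains a lattice, the subgroup `{γ | p₁ γ ∈ K₁}` has infinite
orbits on `Γ / {γ | p₂ γ ∈ K₂}`.
-/

set_option linter.all false

open Set Topology Filter MeasureTheory

namespace Vale.Agent.P092.H941

open Vale.Agent.P092.SR

section sep

variable {G : Type} [Group G] [TopologicalSpace G] [IsTopologicalGroup G]

theorem exists_sep (hG : ¬ IsCompact (Set.univ : Set G)) {D : Set G} (hD : IsCompact D) :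
    ∃ h : ℕ → G, ∀ i j, i ≠ j → (h i)⁻¹ * h j ∉ D := by
  let r : G → G → Prop := fun x y => x⁻¹ * y ∉ D ∧ y⁻¹ * x ∉ D
  haveI : Std.Symm r := ⟨fun x y h => ⟨h.2, h.1⟩⟩
  obtain ⟨f, -, hf⟩ := exists_seq_of_forall_finset_exists' (fun _ : G => True) r (by
    intro s _
    have hc : IsCompact (⋃ x ∈ s, ((fun d => x * d) '' D ∪ (fun d => x * d⁻¹) '' D)) := by
      refine s.isCompact_biUnion fun x _ => ?_
      exact (hD.image (by fun_prop)).union (hD.image (by fun_prop))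
    have hne : (⋃ x ∈ s, ((fun d => x * d) '' D ∪ (fun d => x * d⁻¹) '' D)) ≠ Set.univ := by
      intro he
      rw [he] at hc
      exact hG hc
    obtain ⟨y, hy⟩ := (Set.ne_univ_iff_exists_notMem _).1 hne
    refine ⟨y, trivial, fun x hx => ⟨fun h1 => hy ?_, fun h1 => hy ?_⟩⟩
    · exact mem_iUnion₂.2 ⟨x, hx, Or.inl ⟨_, h1, by group⟩⟩
    · exact mem_iUnion₂.2 ⟨x, hx, Or.inr ⟨_, h1, by group⟩⟩)
  exact ⟨f, fun i j hij => (hf hij).1⟩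

end sep

section lat

variable {G₁ G₂ : Type} [Group G₁] [TopologicalSpace G₁] [IsTopologicalGroup G₁] [Group G₂]
  [TopologicalSpace G₂] [IsTopologicalGroup G₂] [SecondCountableTopology G₁]
  [SecondCountableTopology G₂]

/-- A lattice in `G₁ × G₂`, cut by a compact open subgroup of `G₁`, is unbounded in `G₂`. -/
theorem lat_unbdd (h₂ : ¬ IsCompact (Set.univ : Set G₂)) {K₂ : Subgroup G₂} (hK₂ : COS K₂)
    {K₁ : Subgroup G₁} (hK₁ : IsOpen (K₁ : Set G₁)) {L : Subgroup (G₁ × G₂)}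
    (hL : H515.St.IsLattice L) {C : Set G₂} (hC : IsCompact C)
    (h : ∀ a b, (a, b) ∈ L → a ∈ K₁ → b ∈ C) : False := by
  obtain ⟨ν, h0, h1, hinv⟩ := hL.covol
  letI : MeasurableSpace ((G₁ × G₂) ⧸ L) := borel _
  haveI : BorelSpace ((G₁ × G₂) ⧸ L) := ⟨rfl⟩
  have hD : IsCompact ((fun z : G₂ × G₂ × G₂ => z.1 * z.2.1 * z.2.2) ''
      ((K₂ : Set G₂) ×ˢ (C ×ˢ (K₂ : Set G₂)))) :=
    (hK₂.1.prod (hC.prod hK₂.1)).image (by fun_prop)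
  obtain ⟨x, hx⟩ := exists_sep h₂ hD
  set U : Set (G₁ × G₂) := (K₁ : Set G₁) ×ˢ (K₂ : Set G₂) with hU
  have hUo : IsOpen U := hK₁.prod hK₂.2
  set E0 : Set ((G₁ × G₂) ⧸ L) := QuotientGroup.mk '' U with hE0
  have hE0o : IsOpen E0 := QuotientGroup.isOpenMap_coe _ hUo
  let E : ℕ → Set ((G₁ × G₂) ⧸ L) := fun n => (fun z => ((1, x n) : G₁ × G₂)⁻¹ • z) ⁻¹' E0
  have hmem : ∀ n z, z ∈ E n → ∃ a ∈ K₁, ∃ b ∈ K₂,
      z = QuotientGroup.mk ((a, x n * b) : G₁ × G₂) := by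
    rintro n z ⟨⟨a, b⟩, ⟨ha, hb⟩, hz⟩
    refine ⟨a, ha, b, hb, ?_⟩
    have hz' : (QuotientGroup.mk ((a, b) : G₁ × G₂) : (G₁ × G₂) ⧸ L) =
        ((1, x n) : G₁ × G₂)⁻¹ • z := hz
    have h2 : z = ((1, x n) : G₁ × G₂) • (QuotientGroup.mk ((a, b) : G₁ × G₂) : (G₁ × G₂) ⧸ L) := by
      rw [hz', smul_inv_smul]
    rw [h2]
    change QuotientGroup.mk (((1, x n) : G₁ × G₂) * ((a, b) : G₁ × G₂)) = _
    rw [Prod.mk_mul_mk, one_mul]
  have hdis : Pairwise (Function.onFun Disjoint E) := by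
    intro i j hij
    rw [Function.onFun, Set.disjoint_left]
    intro z hzi hzj
    obtain ⟨a, ha, b, hb, rfl⟩ := hmem i z hzi
    obtain ⟨a', ha', b', hb', he⟩ := hmem j _ hzj
    have h3 := QuotientGroup.eq.1 he
    have h4 : ((a, x i * b) : G₁ × G₂)⁻¹ * (a', x j * b') = (a⁻¹ * a', (x i * b)⁻¹ * (x j * b')) :=
      rfl
    rw [h4] at h3
    have h5 := h _ _ h3 (K₁.mul_mem (K₁.inv_mem ha) ha')
    refine hx i j hij ⟨(b, (x i * b)⁻¹ * (x j * b'), b'⁻¹), ⟨hb, h5, K₂.inv_mem hb'⟩, ?_⟩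
    group
  have hmeas : ∀ n, ν (E n) = ν E0 := fun n => hinv _ _ hE0o.measurableSet
  have hop : ∀ n, MeasurableSet (E n) := fun n =>
    (hE0o.preimage (continuous_const_smul _)).measurableSet
  have hne : ν E0 ≠ 0 := H793.measure_open_ne_zero ν h0 hinv hE0o
    ⟨_, ⟨1, ⟨K₁.one_mem, K₂.one_mem⟩, rfl⟩⟩
  have h6 : ν (⋃ n, E n) = ⊤ := by
    rw [measure_iUnion hdis hop]
    simp only [hmeas]
    exact ENNReal.tsum_const_eq_top_of_ne_zero hne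
  exact absurd (measure_mono (Set.subset_univ (⋃ n, E n))) (by
    rw [h6, not_le]; exact h1)

end lat

variable {Γ G₁ G₂ : Type} [Group Γ] [Group G₁] [TopologicalSpace G₁] [Group G₂]
  [TopologicalSpace G₂] {p₁ : Γ →* G₁} {p₂ : Γ →* G₂}

theorem inf_of_lat (h : LatPair p₁ p₂) (h₁ : GoodGrp G₁) (h₂ : GoodGrp G₂) {K₁ : Subgroup G₁}
    {K₂ : Subgroup G₂} (hK₁ : COS K₁) (hK₂ : COS K₂) (g : Γ) :
    Set.Infinite {x : Γ ⧸ K₂.comap p₂ | ∃ γ, p₁ γ ∈ K₁ ∧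
      x = ((γ * g : Γ) : Γ ⧸ K₂.comap p₂)} := by
  haveI := h₁.top
  haveI := h₂.top
  haveI := h₁.sc
  haveI := h₂.sc
  obtain ⟨L, hL, hLr⟩ := h
  intro hfin
  have hC : IsCompact (⋃ x ∈ {x : Γ ⧸ K₂.comap p₂ | ∃ γ, p₁ γ ∈ K₁ ∧
      x = ((γ * g : Γ) : Γ ⧸ K₂.comap p₂)}, (fun y => p₂ x.out * y * (p₂ g)⁻¹) '' (K₂ : Set G₂)) := by
    refine hfin.isCompact_biUnion fun x _ => hK₂.1.image (by fun_prop)
  refine lat_unbdd h₂.noncompact hK₂ hK₁.2 hL hC ?_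
  intro a b hab ha
  obtain ⟨γ, hγ⟩ := hLr hab
  have ha' : p₁ γ = a := congrArg Prod.fst hγ
  have hb' : p₂ γ = b := congrArg Prod.snd hγ
  refine mem_iUnion₂.2 ⟨((γ * g : Γ) : Γ ⧸ K₂.comap p₂), ⟨γ, by rw [ha']; exact ha, rfl⟩, ?_⟩
  set q : Γ ⧸ K₂.comap p₂ := ((γ * g : Γ) : Γ ⧸ K₂.comap p₂) with hq
  have h3 : (QuotientGroup.mk q.out : Γ ⧸ K₂.comap p₂) = QuotientGroup.mk (γ * g) := by
    rw [QuotientGroup.out_eq', hq]
  have h4 := QuotientGroup.eq.1 h3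
  refine ⟨(p₂ q.out)⁻¹ * (p₂ γ * p₂ g), ?_, ?_⟩
  · have h5 : p₂ (q.out⁻¹ * (γ * g)) ∈ K₂ := h4
    rw [map_mul, map_inv, map_mul] at h5
    exact h5
  · change p₂ q.out * ((p₂ q.out)⁻¹ * (p₂ γ * p₂ g)) * (p₂ g)⁻¹ = b
    rw [mul_inv_cancel_left, mul_inv_cancel_right, hb']

theorem latPair_of_irr (h : Irr p₁ p₂) : LatPair p₁ p₂ := ⟨_, h.lat, le_rfl⟩

end Vale.Agent.P092.H941
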