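import Vale.Agent.P092.H941.FrE
import Vale.Agent.P092.H899.Simple

/-!
P092, TEAM D, block [RUL] of [D-END] (helper941; letters of helper171): the configuration of
points and lines of the source plane which determines a frame of the target plane and sees enough
elements of `SL_3(ℝ)`.
-/

set_option linter.all false

open scoped LinearAlgebra.Projectivization Matrix
open Matrix Topology Filter

namespace Vale.Agent.P092.H941.FrD

open Vale.Agent.P092.H820 Vale.Agent.P092.SD

/-! ### The dual action -/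

section tau

variable {k : Type} [NontriviallyNormedField k]

theorem tau_val (g : G3 k) : (tau k g).1 = (g⁻¹).1ᵀ := rfl

theorem tau_pair (g : G3 k) (v w : Fin 3 → k) :
    (g.1 *ᵥ v) ⬝ᵥ ((tau k g).1 *ᵥ w) = v ⬝ᵥ w := by
  have h : (g⁻¹ : G3 k).1 * g.1 = 1 := congrArg Subtype.val (inv_mul_cancel g)
  rw [tau_val, Matrix.mulVec_transpose, dotProduct_comm, ← Matrix.dotProduct_mulVec,
    Matrix.mulVec_mulVec, h, Matrix.one_mulVec, dotProduct_comm]

/-- `g` on the points and `tau g` on the lines preserve incidence -/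
theorem tau_inc (g : G3 k) (a l : PP k) :
    (a, l) ∈ inc3 (k := k) ↔ (g • a, tau k g • l) ∈ inc3 (k := k) := by
  obtain ⟨v, rfl⟩ := pj_surj (k := k) (ι := Fin 3) a
  obtain ⟨w, rfl⟩ := pj_surj (k := k) (ι := Fin 3) l
  change v.1 ⬝ᵥ w.1 = 0 ↔ (g.1 *ᵥ v.1) ⬝ᵥ ((tau k g).1 *ᵥ w.1) = 0
  rw [tau_pair]

theorem smul_pt (g : G3 k) (v : Fin 3 → k) (hv : v ≠ 0) :
    g • pt k v hv = pt k (g • v) ((smul_ne_zero_iff_ne g).2 hv) := rfl

theorem pt_eq_iff (v w : Fin 3 → k) (hv : v ≠ 0) (hw : w ≠ 0) :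
    pt k v hv = pt k w hw ↔ crossProduct v w = 0 :=
  Projectivization.mk_eq_mk_iff_crossProduct_eq_zero hv hw

theorem pt_inc_iff (v w : Fin 3 → k) (hv : v ≠ 0) (hw : w ≠ 0) :
    (pt k v hv, pt k w hw) ∈ inc3 (k := k) ↔ v ⬝ᵥ w = 0 := Iff.rfl

end tau

/-! ### The labels -/

section lab

/-- the indices: the four points, the lines through them, three more points, one more line -/
abbrev Ix := Fin 4 ⊕ (Fin 4 × Fin 4) ⊕ Fin 4

theorem n110 : (![1, 1, 0] : Fin 3 → ℝ) ≠ 0 := by
  intro h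
  have := congrFun h 0
  simp at this

theorem n101 : (![1, 0, 1] : Fin 3 → ℝ) ≠ 0 := by
  intro h
  have := congrFun h 0
  simp at this

theorem n211 : (![2, 1, 1] : Fin 3 → ℝ) ≠ 0 := by
  intro h
  have := congrFun h 0
  simp at this

theorem n1mm : (![1, -1, -1] : Fin 3 → ℝ) ≠ 0 := by
  intro h
  have := congrFun h 0
  simp at this

/-- the labels: `inl` the points, `inr` the lines of the source plane -/
noncomputable def lab : Ix → PP ℝ ⊕ PP ℝ
  | .inl i => .inl (src ℝ i)
  | .inr (.inl (i, j)) => .inr (ln ℝ i j)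
  | .inr (.inr 0) => .inl (pt ℝ ![1, 1, 0] n110)
  | .inr (.inr 1) => .inl (pt ℝ ![1, 0, 1] n101)
  | .inr (.inr 2) => .inl (pt ℝ ![2, 1, 1] n211)
  | .inr (.inr 3) => .inr (pt ℝ ![1, -1, -1] n1mm)

/-- `z` is a morphism of the configuration: it keeps incidences and differences -/
def Mor (z : Ix → PP ℝ) : Prop :=
  (∀ s t a l, lab s = .inl a → lab t = .inr l → (a, l) ∈ inc3 (k := ℝ) →
    (z s, z t) ∈ inc3 (k := ℝ)) ∧
  (∀ s t a b, lab s = .inl a → lab t = .inl b → a ≠ b → z s ≠ z t) ∧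
  (∀ s t a b, lab s = .inr a → lab t = .inr b → a ≠ b → z s ≠ z t)

theorem gpos_of_mor {z : Ix → PP ℝ} (hz : Mor z) : GPos (fun i => z (.inl i)) := by
  obtain ⟨h1, h2, h3⟩ := hz
  rintro i j l hij hjl hil n ⟨a1, a2, a3⟩
  have e1 : n = z (.inr (.inl (i, j))) :=
    line_uniq (h2 (.inl i) (.inl j) _ _ rfl rfl (src_ne ℝ hij)) a1 a2
      (h1 (.inl i) (.inr (.inl (i, j))) _ _ rfl rfl (src_ln_left ℝ i j))
      (h1 (.inl j) (.inr (.inl (i, j))) _ _ rfl rfl (src_ln_right ℝ i j))
  have e2 : n = z (.inr (.inl (i, l))) :=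
    line_uniq (h2 (.inl i) (.inl l) _ _ rfl rfl (src_ne ℝ hil)) a1 a3
      (h1 (.inl i) (.inr (.inl (i, l))) _ _ rfl rfl (src_ln_left ℝ i l))
      (h1 (.inl l) (.inr (.inl (i, l))) _ _ rfl rfl (src_ln_right ℝ i l))
  exact h3 (.inr (.inl (i, j))) (.inr (.inl (i, l))) _ _ rfl rfl (ln_ne ℝ hij hjl hil)
    (e1.symm.trans e2)

/-- a second source point on every line `ln i j` -/
theorem ln_two (i j : Fin 4) : ∃ j' : Fin 4, i ≠ j' ∧ (src ℝ j', ln ℝ i j) ∈ inc3 (k := ℝ) := by
  by_cases h : i = j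
  · subst h
    refine ⟨i + 1, by revert i; decide, ?_⟩
    change sv ℝ (i + 1) ⬝ᵥ lv ℝ i i = 0
    rw [lv, if_pos rfl]
    simp
  · exact ⟨j, h, src_ln_right ℝ i j⟩

theorem line_new {z : Ix → PP ℝ} (hz : Mor z) (g : G3 ℝ) {s s' t : Ix} {a b l : PP ℝ}
    (hs : lab s = .inl a) (hs' : lab s' = .inl b) (ht : lab t = .inr l) (hab : a ≠ b)
    (h1 : (a, l) ∈ inc3 (k := ℝ)) (h2 : (b, l) ∈ inc3 (k := ℝ)) (e1 : z s = g • a)
    (e2 : z s' = g • b) : z t = tau ℝ g • l := by
  have hne : g • a ≠ g • b := fun h => hab (smul_left_cancel g h)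
  have i1 := hz.1 s t a l hs ht h1
  have i2 := hz.1 s' t b l hs' ht h2
  rw [e1] at i1
  rw [e2] at i2
  exact line_uniq hne i1 i2 ((tau_inc g a l).1 h1) ((tau_inc g b l).1 h2)

theorem point_new {z : Ix → PP ℝ} (hz : Mor z) (g : G3 ℝ) {s t t' : Ix} {a l m : PP ℝ}
    (hs : lab s = .inl a) (ht : lab t = .inr l) (ht' : lab t' = .inr m) (hlm : l ≠ m)
    (h1 : (a, l) ∈ inc3 (k := ℝ)) (h2 : (a, m) ∈ inc3 (k := ℝ)) (e1 : z t = tau ℝ g • l)
    (e2 : z t' = tau ℝ g • m) : z s = g • a := by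
  have hne : tau ℝ g • l ≠ tau ℝ g • m := fun h => hlm (smul_left_cancel _ h)
  have i1 := hz.1 s t a l hs ht h1
  have i2 := hz.1 s t' a m hs ht' h2
  rw [e1] at i1
  rw [e2] at i2
  exact point_uniq hne i1 i2 ((tau_inc g a l).1 h1) ((tau_inc g a m).1 h2)

theorem mor_eq {z : Ix → PP ℝ} (hz : Mor z) (g : G3 ℝ) (h : ∀ i, z (.inl i) = g • src ℝ i) :
    ∀ s, (∀ a, lab s = .inl a → z s = g • a) ∧ (∀ l, lab s = .inr l → z s = tau ℝ g • l) := by
  have hl : ∀ i j, z (.inr (.inl (i, j))) = tau ℝ g • ln ℝ i j := by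
    intro i j
    obtain ⟨j', hj, hj'⟩ := ln_two i j
    exact line_new hz g (s := .inl i) (s' := .inl j') rfl rfl rfl (src_ne ℝ hj)
      (src_ln_left ℝ i j) hj' (h i) (h j')
  have c0 : z (.inr (.inr 0)) = g • pt ℝ ![1, 1, 0] n110 := by
    refine point_new hz g (t := .inr (.inl (0, 1))) (t' := .inr (.inl (2, 3))) rfl rfl rfl
      ?_ ?_ ?_ (hl 0 1) (hl 2 3)
    · intro e
      rw [ln, ln, pt_eq_iff] at e
      have := congrFun e 0
      have := congrFun e 1
      have := congrFun e 2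
      simp [lv, sv, cross_apply] at *
    · rw [ln, pt_inc_iff]
      simp [lv, sv, cross_apply, dotProduct, Fin.sum_univ_three]
    · rw [ln, pt_inc_iff]
      simp [lv, sv, cross_apply, dotProduct, Fin.sum_univ_three]
  have c1 : z (.inr (.inr 1)) = g • pt ℝ ![1, 0, 1] n101 := by
    refine point_new hz g (t := .inr (.inl (0, 2))) (t' := .inr (.inl (1, 3))) rfl rfl rfl
      ?_ ?_ ?_ (hl 0 2) (hl 1 3)
    · intro e
      rw [ln, ln, pt_eq_iff] at e
      have := congrFun e 0
      have := congrFun e 1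
      have := congrFun e 2
      simp [lv, sv, cross_apply] at *
    · rw [ln, pt_inc_iff]
      simp [lv, sv, cross_apply, dotProduct, Fin.sum_univ_three]
    · rw [ln, pt_inc_iff]
      simp [lv, sv, cross_apply, dotProduct, Fin.sum_univ_three]
  have c3 : z (.inr (.inr 3)) = tau ℝ g • pt ℝ ![1, -1, -1] n1mm := by
    refine line_new hz g (s := .inr (.inr 0)) (s' := .inr (.inr 1)) rfl rfl rfl
      ?_ ?_ ?_ c0 c1
    · intro e
      rw [pt_eq_iff] at e
      have := congrFun e 0
      simp [cross_apply] at this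
    · rw [pt_inc_iff]
      simp [dotProduct, Fin.sum_univ_three]
    · rw [pt_inc_iff]
      simp [dotProduct, Fin.sum_univ_three]
  have c2 : z (.inr (.inr 2)) = g • pt ℝ ![2, 1, 1] n211 := by
    refine point_new hz g (t := .inr (.inl (0, 3))) (t' := .inr (.inr 3)) rfl rfl rfl
      ?_ ?_ ?_ (hl 0 3) c3
    · intro e
      rw [ln, pt_eq_iff] at e
      have := congrFun e 0
      have := congrFun e 1
      have := congrFun e 2
      simp [lv, sv, cross_apply] at *
    · rw [ln, pt_inc_iff]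
      simp [lv, sv, cross_apply, dotProduct, Fin.sum_univ_three]
    · rw [pt_inc_iff]
      simp [dotProduct, Fin.sum_univ_three]
      norm_num
  intro s
  match s with
  | .inl i => exact ⟨fun a ha => by cases ha; exact h i, fun l hl' => by cases hl'⟩
  | .inr (.inl (i, j)) => exact ⟨fun a ha => (by cases ha), fun l hl' => (by cases hl'; exact hl i j)⟩
  | .inr (.inr 0) => exact ⟨fun a ha => by cases ha; exact c0, fun l hl' => by cases hl'⟩
  | .inr (.inr 1) => exact ⟨fun a ha => by cases ha; exact c1, fun l hl' => by cases hl'⟩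
  | .inr (.inr 2) => exact ⟨fun a ha => by cases ha; exact c2, fun l hl' => by cases hl'⟩
  | .inr (.inr 3) => exact ⟨fun a ha => (by cases ha), fun l hl' => (by cases hl'; exact c3)⟩

end lab

/-! ### The closed subgroup generated by the labels -/

section top

/-- `1 + t E_ij` -/
noncomputable def tv {i j : Fin 3} (hij : i ≠ j) (t : ℝ) : G3 ℝ := SpecialLinearGroup.transvection hij t

theorem tv_val {i j : Fin 3} (hij : i ≠ j) (t : ℝ) : (tv hij t).1 = Matrix.transvection i j t := rfl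

/-- `2^{-1/3} diag(2,1,1)` -/
noncomputable def dd : G3 ℝ :=
  ⟨cb (1 / 2) • Matrix.diagonal ![2, 1, 1], by
    rw [det_smul, Fintype.card_fin, cb_pow, det_diagonal, Fin.prod_univ_three]
    simp⟩

/-- the three-cycle -/
noncomputable def sg : G3 ℝ := ⟨!![0, 0, 1; 1, 0, 0; 0, 1, 0], by
  rw [det_fin_three]
  simp⟩

theorem dd_conj (t : ℝ) : dd * tv (show (0 : Fin 3) ≠ 1 by decide) t =
    tv (show (0 : Fin 3) ≠ 1 by decide) (2 * t) * dd := by
  apply Subtype.ext
  change (cb (1 / 2) • Matrix.diagonal ![2, 1, 1]) * Matrix.transvection 0 1 t =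
    Matrix.transvection 0 1 (2 * t) * (cb (1 / 2) • Matrix.diagonal ![2, 1, 1])
  rw [Matrix.smul_mul, Matrix.mul_smul]
  congr 1
  ext i j
  fin_cases i <;> fin_cases j <;> simp [Matrix.transvection, Matrix.mul_apply, Fin.sum_univ_three, Matrix.diagonal, Matrix.single_apply, Matrix.one_apply]

theorem sg_conj {i j : Fin 3} (hij : i ≠ j) (hij' : i + 1 ≠ j + 1) (t : ℝ) :
    sg * tv hij t = tv hij' t * sg := by
  apply Subtype.ext
  change !![0, 0, 1; 1, 0, 0; 0, 1, 0] * Matrix.transvection i j t =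
    Matrix.transvection (i + 1) (j + 1) t * !![0, 0, 1; 1, 0, 0; 0, 1, 0]
  ext a b
  fin_cases i <;> fin_cases j <;> fin_cases a <;> fin_cases b <;> simp [Matrix.transvection, Matrix.mul_apply, Fin.sum_univ_three, Matrix.single_apply, Matrix.one_apply] at hij ⊢

theorem tv_comm {i j l : Fin 3} (hij : i ≠ j) (hjl : j ≠ l) (hil : i ≠ l) (s t : ℝ) :
    tv hij s * tv hjl t = tv hil (s * t) * (tv hjl t * tv hij s) := by
  apply Subtype.ext
  change Matrix.transvection i j s * Matrix.transvection j l t =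
    Matrix.transvection i l (s * t) * (Matrix.transvection j l t * Matrix.transvection i j s)
  simp only [Matrix.transvection, Matrix.mul_add, Matrix.add_mul, Matrix.mul_one, Matrix.one_mul]
  simp [hij, hjl, hil, hij.symm, hjl.symm, hil.symm]
  abel

theorem tv_cont {i j : Fin 3} (hij : i ≠ j) : Continuous fun t : ℝ => tv hij t := by
  refine Continuous.subtype_mk ?_ _
  refine continuous_matrix fun a b => ?_
  simp only [Matrix.transvection, Matrix.add_apply, Matrix.single_apply]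
  split_ifs
  · exact continuous_const.add continuous_id
  · exact continuous_const.add continuous_const

/-- a closed subgroup which contains `1 + E_01`, `dd` and the three-cycle is everything -/
theorem top_of_three (S : Subgroup (G3 ℝ)) (hcl : IsClosed (S : Set (G3 ℝ)))
    (hu : tv (show (0 : Fin 3) ≠ 1 by decide) 1 ∈ S) (hd : dd ∈ S) (hs : sg ∈ S) : S = ⊤ := by
  let T : AddSubgroup ℝ :=
    { carrier := {t | tv (show (0 : Fin 3) ≠ 1 by decide) t ∈ S}
      zero_mem' := by
        change tv (show (0 : Fin 3) ≠ 1 by decide) 0 ∈ S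
        rw [tv, SpecialLinearGroup.transvection_coeff_zero]
        exact S.one_mem
      add_mem' := by
        intro a b ha hb
        change tv (show (0 : Fin 3) ≠ 1 by decide) (a + b) ∈ S
        rw [tv, SpecialLinearGroup.transvection_add]
        exact S.mul_mem ha hb
      neg_mem' := by
        intro a ha
        change tv (show (0 : Fin 3) ≠ 1 by decide) (-a) ∈ S
        rw [tv, ← SpecialLinearGroup.transvection_inv]
        exact S.inv_mem ha }
  have hT : ∀ t, t ∈ T ↔ tv (show (0 : Fin 3) ≠ 1 by decide) t ∈ S := fun t => Iff.rfl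
  have hhalf : ∀ t, t ∈ T → t / 2 ∈ T := by
    intro t ht
    rw [hT] at ht ⊢
    have e := dd_conj (t / 2)
    rw [mul_div_cancel₀ t (two_ne_zero)] at e
    have e2 : tv (show (0 : Fin 3) ≠ 1 by decide) (t / 2) =
        dd⁻¹ * (tv (show (0 : Fin 3) ≠ 1 by decide) t * dd) := by
      rw [← e, inv_mul_cancel_left]
    rw [e2]
    exact S.mul_mem (S.inv_mem hd) (S.mul_mem ht hd)
  have hpow : ∀ n : ℕ, (1 / 2 : ℝ) ^ n ∈ T := by
    intro n
    induction n with
    | zero => rw [pow_zero]; exact hu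
    | succ n ih =>
      have := hhalf _ ih
      rwa [show (1 / 2 : ℝ) ^ n / 2 = (1 / 2) ^ (n + 1) by ring] at this
  have hdense : Dense (T : Set ℝ) := by
    refine AddSubgroup.dense_of_not_isolated_zero T fun ε hε => ?_
    obtain ⟨n, hn⟩ := exists_pow_lt_of_lt_one hε (show (1 / 2 : ℝ) < 1 by norm_num)
    exact ⟨(1 / 2 : ℝ) ^ n, hpow n, by positivity, hn⟩
  have hclT : IsClosed (T : Set ℝ) := hcl.preimage (tv_cont _)
  have hTall : ∀ t, t ∈ T := by
    intro t
    have : (T : Set ℝ) = Set.univ := by rw [← hclT.closure_eq]; exact hdense.closure_eq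
    exact (this ▸ Set.mem_univ t : t ∈ (T : Set ℝ))
  have hstep : ∀ (i j : Fin 3) (hij : i ≠ j) (hij' : i + 1 ≠ j + 1),
      (∀ t, tv hij t ∈ S) → ∀ t, tv hij' t ∈ S := by
    intro i j hij hij' hh t
    have e : tv hij' t = sg * tv hij t * sg⁻¹ := by
      rw [sg_conj hij hij' t, mul_inv_cancel_right]
    rw [e]
    exact S.mul_mem (S.mul_mem hs (hh t)) (S.inv_mem hs)
  have h01 : ∀ t, tv (show (0 : Fin 3) ≠ 1 by decide) t ∈ S := hTall
  have h12 : ∀ t, tv (show (1 : Fin 3) ≠ 2 by decide) t ∈ S :=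
    hstep 0 1 (by decide) (by decide) h01
  have h20 : ∀ t, tv (show (2 : Fin 3) ≠ 0 by decide) t ∈ S :=
    hstep 1 2 (by decide) (by decide) h12
  have hcomm : ∀ (i j l : Fin 3) (hij : i ≠ j) (hjl : j ≠ l) (hil : i ≠ l),
      (∀ t, tv hij t ∈ S) → (∀ t, tv hjl t ∈ S) → ∀ t, tv hil t ∈ S := by
    intro i j l hij hjl hil a b t
    have e := tv_comm hij hjl hil 1 t
    rw [one_mul] at e
    have e2 : tv hil t = tv hij 1 * tv hjl t * (tv hjl t * tv hij 1)⁻¹ := by
      rw [e, mul_inv_cancel_right]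
    rw [e2]
    exact S.mul_mem (S.mul_mem (a 1) (b t)) (S.inv_mem (S.mul_mem (b t) (a 1)))
  have h02 : ∀ t, tv (show (0 : Fin 3) ≠ 2 by decide) t ∈ S :=
    hcomm 0 1 2 (by decide) (by decide) (by decide) h01 h12
  have h10 : ∀ t, tv (show (1 : Fin 3) ≠ 0 by decide) t ∈ S :=
    hcomm 1 2 0 (by decide) (by decide) (by decide) h12 h20
  have h21 : ∀ t, tv (show (2 : Fin 3) ≠ 1 by decide) t ∈ S :=
    hcomm 2 0 1 (by decide) (by decide) (by decide) h20 h01
  refine H899.eq_top_of_e S fun i j hij c => ?_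
  fin_cases i <;> fin_cases j
  · exact absurd rfl hij
  · exact h01 c
  · exact h02 c
  · exact h10 c
  · exact absurd rfl hij
  · exact h12 c
  · exact h20 c
  · exact h21 c
  · exact absurd rfl hij

theorem smul_src_eq (g : G3 ℝ) (i : Fin 4) (w : Fin 3 → ℝ) (hw : w ≠ 0)
    (h : crossProduct (g.1 *ᵥ sv ℝ i) w = 0) : g • src ℝ i = pt ℝ w hw :=
  (pt_eq_iff (g • sv ℝ i) w ((smul_ne_zero_iff_ne g).2 (sv_ne ℝ i)) hw).2 h

/-- **The ruler**: a closed subgroup which contains all elements which map the frame of the source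
plane to labels is everything. -/
theorem closed_top (S : Subgroup (G3 ℝ)) (hcl : IsClosed (S : Set (G3 ℝ)))
    (h : ∀ h : G3 ℝ, (∀ i, ∃ s, lab s = .inl (h • src ℝ i)) → h ∈ S) : S = ⊤ := by
  have hsrc : ∀ (g : G3 ℝ) (i j : Fin 4), crossProduct (g.1 *ᵥ sv ℝ i) (sv ℝ j) = 0 →
      ∃ s, lab s = .inl (g • src ℝ i) := by
    intro g i j e
    refine ⟨.inl j, ?_⟩
    rw [smul_src_eq g i (sv ℝ j) (sv_ne ℝ j) e]
    rfl
  refine top_of_three S hcl (h _ ?_) (h _ ?_) (h _ ?_)
  · intro i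
    fin_cases i
    · refine hsrc _ 0 0 ?_
      rw [tv_val]
      ext a
      fin_cases a <;> simp [sv, Matrix.transvection, cross_apply, Matrix.mulVec, dotProduct,
        Fin.sum_univ_three, Matrix.single_apply, Matrix.one_apply]
    · refine ⟨.inr (.inr 0), ?_⟩
      change _ = Sum.inl (_ • src ℝ 1)
      rw [smul_src_eq _ 1 ![1, 1, 0] n110]
      · rfl
      · rw [tv_val]
        ext a
        fin_cases a <;> simp [sv, Matrix.transvection, cross_apply, Matrix.mulVec, dotProduct,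
          Fin.sum_univ_three, Matrix.single_apply, Matrix.one_apply]
    · refine hsrc _ 2 2 ?_
      rw [tv_val]
      ext a
      fin_cases a <;> simp [sv, Matrix.transvection, cross_apply, Matrix.mulVec, dotProduct,
        Fin.sum_univ_three, Matrix.single_apply, Matrix.one_apply]
    · refine ⟨.inr (.inr 2), ?_⟩
      change _ = Sum.inl (_ • src ℝ 3)
      rw [smul_src_eq _ 3 ![2, 1, 1] n211]
      · rfl
      · rw [tv_val]
        ext a
        fin_cases a <;> simp [sv, Matrix.transvection, cross_apply, Matrix.mulVec, dotProduct,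
          Fin.sum_univ_three, Matrix.single_apply, Matrix.one_apply] <;> norm_num
  · intro i
    have hv : ∀ (w : Fin 3 → ℝ) (a : Fin 3), (dd.1 *ᵥ w) a = cb (1 / 2) * (![2, 1, 1] a * w a) := by
      intro w a
      change ((cb (1 / 2) • Matrix.diagonal ![2, 1, 1]) *ᵥ w) a = _
      rw [smul_mulVec, Pi.smul_apply, mulVec_diagonal, smul_eq_mul]
    fin_cases i
    · refine hsrc _ 0 0 ?_
      rw [cross_apply, hv, hv, hv]
      ext a
      fin_cases a <;> simp [sv]
    · refine hsrc _ 1 1 ?_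
      rw [cross_apply, hv, hv, hv]
      ext a
      fin_cases a <;> simp [sv]
    · refine hsrc _ 2 2 ?_
      rw [cross_apply, hv, hv, hv]
      ext a
      fin_cases a <;> simp [sv]
    · refine ⟨.inr (.inr 2), ?_⟩
      change _ = Sum.inl (_ • src ℝ 3)
      rw [smul_src_eq _ 3 ![2, 1, 1] n211]
      · rfl
      · rw [cross_apply, hv, hv, hv]
        ext a
        fin_cases a <;> simp [sv] <;> ring
  · intro i
    have hv : ∀ (w : Fin 3 → ℝ), sg.1 *ᵥ w = ![w 2, w 0, w 1] := by
      intro w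
      change !![0, 0, 1; 1, 0, 0; 0, 1, 0] *ᵥ w = _
      ext a
      fin_cases a <;> simp [Matrix.mulVec, dotProduct, Fin.sum_univ_three]
    fin_cases i
    · refine hsrc _ 0 1 ?_
      rw [hv]
      ext a
      fin_cases a <;> simp [sv, cross_apply]
    · refine hsrc _ 1 2 ?_
      rw [hv]
      ext a
      fin_cases a <;> simp [sv, cross_apply]
    · refine hsrc _ 2 0 ?_
      rw [hv]
      ext a
      fin_cases a <;> simp [sv, cross_apply]
    · refine hsrc _ 3 3 ?_
      rw [hv]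
      ext a
      fin_cases a <;> simp [sv, cross_apply]

end top

/-! ### Transitivity -/

section tr

theorem trans (a b : PP ℝ) : ∃ g : G3 ℝ, g • a = b := MulAction.exists_smul_eq (G3 ℝ) a b

end tr

end Vale.Agent.P092.H941.FrD
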