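import Vale.Agent.P092.H941.FrD

/-!
P092, TEAM D, block [E-GEO] (c') of [D-END] (helper941; cut of helper171): the group `SL_3(ℝ)` is
the space of projective frames: `g ↦ (g • e_0, g • e_1, g • e_2, g • (e_0 + e_1 + e_2))` is an open
embedding onto the set of the quadruples of points in general position.
-/

set_option linter.all false

open scoped LinearAlgebra.Projectivization Matrix
open Matrix Topology Filter

namespace Vale.Agent.P092.H941.FrD

open Vale.Agent.P092.H820 Vale.Agent.P092.SD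

/-! ### The real cube root -/

section cb

theorem cube_surj : Function.Surjective fun x : ℝ => x ^ 3 := by
  refine Continuous.surjective (continuous_pow 3) (tendsto_pow_atTop (by norm_num)) ?_
  have h : (fun x : ℝ => x ^ 3) = fun x => -((-x) ^ 3) := by
    funext x
    ring
  rw [h]
  exact tendsto_neg_atTop_atBot.comp
    ((tendsto_pow_atTop (by norm_num)).comp tendsto_neg_atBot_atTop)

/-- the cube as an order isomorphism -/
noncomputable def cubeIso : ℝ ≃o ℝ :=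
  StrictMono.orderIsoOfSurjective (fun x : ℝ => x ^ 3) (Odd.strictMono_pow (by decide)) cube_surj

/-- the real cube root -/
noncomputable def cb (x : ℝ) : ℝ := cubeIso.symm x

theorem cb_pow (x : ℝ) : cb x ^ 3 = x := cubeIso.apply_symm_apply x

theorem cb_cont : Continuous cb := cubeIso.symm.continuous

end cb

/-! ### The frame of four vectors -/

section fr

variable {k : Type} [Field k]

/-- the weights -/
def tw (v : Fin 4 → (Fin 3 → k)) : Fin 3 → k :=
  ![tri (v 3) (v 1) (v 2), tri (v 0) (v 3) (v 2), tri (v 0) (v 1) (v 3)]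

/-- the frame matrix: its columns are multiples of `v 0`, `v 1`, `v 2`, their sum is a multiple
of `v 3` -/
def FB (v : Fin 4 → (Fin 3 → k)) : Matrix (Fin 3) (Fin 3) k :=
  (Matrix.of ![v 0, v 1, v 2])ᵀ * diagonal (tw v)

theorem det_FB (v : Fin 4 → (Fin 3 → k)) : (FB v).det = tri (v 0) (v 1) (v 2) *
    (tri (v 3) (v 1) (v 2) * tri (v 0) (v 3) (v 2) * tri (v 0) (v 1) (v 3)) := by
  rw [FB, det_mul, det_transpose, ← tri_eq_det, det_diagonal, Fin.prod_univ_three]
  rfl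

theorem FB_mulVec (v : Fin 4 → (Fin 3 → k)) (x : Fin 3 → k) (i : Fin 3) : (FB v *ᵥ x) i =
    tw v 0 * x 0 * v 0 i + tw v 1 * x 1 * v 1 i + tw v 2 * x 2 * v 2 i := by
  rw [FB, ← mulVec_mulVec, of_mulVec, mulVec_diagonal, mulVec_diagonal, mulVec_diagonal]

/-- Cramer -/
theorem FB_one (v : Fin 4 → (Fin 3 → k)) :
    FB v *ᵥ ![1, 1, 1] = tri (v 0) (v 1) (v 2) • v 3 := by
  funext i
  rw [FB_mulVec, Pi.smul_apply, smul_eq_mul]
  have e0 : tw v 0 = tri (v 3) (v 1) (v 2) := rfl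
  have e1 : tw v 1 = tri (v 0) (v 3) (v 2) := rfl
  have e2 : tw v 2 = tri (v 0) (v 1) (v 3) := rfl
  rw [e0, e1, e2]
  simp only [tri_expand]
  fin_cases i <;> simp <;> ring

theorem FB_sv (v : Fin 4 → (Fin 3 → k)) (h : (FB v).det ≠ 0) (i : Fin 4) :
    ∃ t : k, t ≠ 0 ∧ FB v *ᵥ sv k i = t • v i := by
  rw [det_FB] at h
  have h1 := left_ne_zero_of_mul h
  have h2 := right_ne_zero_of_mul h
  have h3 := right_ne_zero_of_mul h2
  have h4 := left_ne_zero_of_mul (left_ne_zero_of_mul h2)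
  have h5 := right_ne_zero_of_mul (left_ne_zero_of_mul h2)
  fin_cases i
  · refine ⟨_, h4, ?_⟩
    funext i
    rw [FB_mulVec]
    simp [sv, tw]
  · refine ⟨_, h5, ?_⟩
    funext i
    rw [FB_mulVec]
    simp [sv, tw]
  · refine ⟨_, h3, ?_⟩
    funext i
    rw [FB_mulVec]
    simp [sv, tw]
  · exact ⟨_, h1, FB_one v⟩

theorem tri_mulVec (g : Matrix (Fin 3) (Fin 3) k) (u v w : Fin 3 → k) :
    tri (g *ᵥ u) (g *ᵥ v) (g *ᵥ w) = g.det * tri u v w := by
  have e : Matrix.of ![g *ᵥ u, g *ᵥ v, g *ᵥ w] = Matrix.of ![u, v, w] * gᵀ := by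
    ext i j
    rw [Matrix.mul_apply]
    fin_cases i <;> simp [Matrix.mulVec, dotProduct, mul_comm]
  rw [tri_eq_det, tri_eq_det, e, det_mul, det_transpose, mul_comm]

theorem three_of {P : Fin 4 → Prop} {i j l : Fin 4} (hij : i ≠ j) (hjl : j ≠ l) (hil : i ≠ l)
    (h1 : P i) (h2 : P j) (h3 : P l) : (P 0 ∧ P 1 ∧ P 2) ∨ (P 3 ∧ P 1 ∧ P 2) ∨
      (P 0 ∧ P 3 ∧ P 2) ∨ (P 0 ∧ P 1 ∧ P 3) := by
  fin_cases i <;> fin_cases j <;> fin_cases l <;>
    first
    | exact absurd rfl hij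
    | exact absurd rfl hjl
    | exact absurd rfl hil
    | (simp only [Fin.zero_eta, Fin.mk_one, Fin.reduceFinMk] at h1 h2 h3; tauto)

end fr

section fr2

variable {k : Type} [NontriviallyNormedField k]

/-- the classes of four vectors -/
def pj4 (v : Fin 4 → {v : Fin 3 → k // v ≠ 0}) : Fin 4 → PP k := fun i => pj k (Fin 3) (v i)

theorem pj4_open : IsOpenMap (pj4 (k := k)) :=
  IsOpenMap.piMap (fun _ => pj_open) (by simp [pj_surj])

theorem gpos_iff (v : Fin 4 → {v : Fin 3 → k // v ≠ 0}) :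
    GPos (pj4 v) ↔ (FB fun i => (v i).1).det ≠ 0 := by
  rw [det_FB]
  constructor
  · intro h
    have hcol : ∀ i j l : Fin 4, i ≠ j → j ≠ l → i ≠ l → tri (v i).1 (v j).1 (v l).1 ≠ 0 := by
      intro i j l h1 h2 h3 h0
      obtain ⟨x, hx, e1, e2, e3⟩ := (tri_zero_iff _ _ _).1 h0
      exact h i j l h1 h2 h3 (pj k (Fin 3) ⟨x, hx⟩) ⟨e1, e2, e3⟩
    exact mul_ne_zero (hcol 0 1 2 (by decide) (by decide) (by decide))
      (mul_ne_zero (mul_ne_zero (hcol 3 1 2 (by decide) (by decide) (by decide))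
        (hcol 0 3 2 (by decide) (by decide) (by decide)))
        (hcol 0 1 3 (by decide) (by decide) (by decide)))
  · rintro h i j l h1 h2 h3 n ⟨e1, e2, e3⟩
    obtain ⟨x, rfl⟩ := pj_surj n
    have a1 : (v i).1 ⬝ᵥ x.1 = 0 := e1
    have a2 : (v j).1 ⬝ᵥ x.1 = 0 := e2
    have a3 : (v l).1 ⬝ᵥ x.1 = 0 := e3
    have b1 := left_ne_zero_of_mul h
    have b2 := right_ne_zero_of_mul h
    have b3 := right_ne_zero_of_mul b2
    have b4 := left_ne_zero_of_mul (left_ne_zero_of_mul b2)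
    have b5 := right_ne_zero_of_mul (left_ne_zero_of_mul b2)
    rcases three_of (P := fun m => (v m).1 ⬝ᵥ x.1 = 0) h1 h2 h3 a1 a2 a3 with h4 | h4 | h4 | h4
    · exact b1 ((tri_zero_iff _ _ _).2 ⟨x.1, x.2, h4⟩)
    · exact b4 ((tri_zero_iff _ _ _).2 ⟨x.1, x.2, h4⟩)
    · exact b5 ((tri_zero_iff _ _ _).2 ⟨x.1, x.2, h4⟩)
    · exact b3 ((tri_zero_iff _ _ _).2 ⟨x.1, x.2, h4⟩)

theorem FB_cont : Continuous fun v : Fin 4 → {v : Fin 3 → k // v ≠ 0} =>
    FB fun i => (v i).1 := by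
  have hv : ∀ (j : Fin 4) (i : Fin 3), Continuous fun v : Fin 4 → {v : Fin 3 → k // v ≠ 0} =>
      (v j).1 i := fun j i =>
    (continuous_apply i).comp (continuous_subtype_val.comp (continuous_apply j))
  have ht : ∀ a b c : Fin 4, Continuous fun v : Fin 4 → {v : Fin 3 → k // v ≠ 0} =>
      tri (v a).1 (v b).1 (v c).1 := by
    intro a b c
    simp only [tri_expand]
    exact (((hv a 0).mul (((hv b 1).mul (hv c 2)).sub ((hv b 2).mul (hv c 1)))).add
      ((hv a 1).mul (((hv b 2).mul (hv c 0)).sub ((hv b 0).mul (hv c 2))))).add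
      ((hv a 2).mul (((hv b 0).mul (hv c 1)).sub ((hv b 1).mul (hv c 0))))
  have h1 : Continuous fun v : Fin 4 → {v : Fin 3 → k // v ≠ 0} =>
      (Matrix.of ![(v 0).1, (v 1).1, (v 2).1])ᵀ := by
    refine continuous_matrix fun i j => ?_
    fin_cases j
    · exact hv 0 i
    · exact hv 1 i
    · exact hv 2 i
  have h2 : Continuous fun v : Fin 4 → {v : Fin 3 → k // v ≠ 0} => tw fun i => (v i).1 := by
    refine continuous_pi fun i => ?_
    fin_cases i
    · exact ht 3 1 2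
    · exact ht 0 3 2
    · exact ht 0 1 3
  exact h1.mul ((Continuous.matrix_diagonal continuous_id).comp h2)

end fr2

/-! ### The frame map -/

section real

/-- the frame map -/
noncomputable def cmap (g : G3 ℝ) : Fin 4 → PP ℝ := fun i => g • src ℝ i

theorem cmap_apply (g : G3 ℝ) (i : Fin 4) : cmap g i = g • src ℝ i := rfl

theorem cmap_mul (g h : G3 ℝ) (i : Fin 4) : cmap (g * h) i = g • cmap h i := mul_smul g h _

theorem cmap_one : cmap 1 = src ℝ := by
  funext i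
  exact one_smul _ _

theorem cmap_continuous : Continuous cmap :=
  continuous_pi fun i => by
    have h : Continuous fun p : G3 ℝ × PP ℝ => p.1 • p.2 := continuous_smul
    exact h.comp (continuous_id.prodMk continuous_const)

/-- the normalised frame matrix -/
noncomputable def FM (v : Fin 4 → (Fin 3 → ℝ)) : Matrix (Fin 3) (Fin 3) ℝ :=
  cb ((FB v).det)⁻¹ • FB v

theorem det_FM (v : Fin 4 → (Fin 3 → ℝ)) (h : (FB v).det ≠ 0) : (FM v).det = 1 := by
  rw [FM, det_smul, Fintype.card_fin, cb_pow, inv_mul_cancel₀ h]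

theorem smul_src (g : G3 ℝ) (i : Fin 4) (w : {v : Fin 3 → ℝ // v ≠ 0})
    (h : ∃ t : ℝ, t ≠ 0 ∧ g.1 *ᵥ sv ℝ i = t • w.1) : g • src ℝ i = pj ℝ (Fin 3) w := by
  obtain ⟨t, ht, h⟩ := h
  have e : g • src ℝ i = pj ℝ (Fin 3) ⟨g • sv ℝ i, (smul_ne_zero_iff_ne g).2 (sv_ne ℝ i)⟩ := rfl
  rw [e, pj_eq]
  exact ⟨Units.mk0 t ht, h.symm⟩

theorem cmap_FM (v : Fin 4 → {v : Fin 3 → ℝ // v ≠ 0}) (h : (FB fun i => (v i).1).det ≠ 0) :
    cmap ⟨FM fun i => (v i).1, det_FM _ h⟩ = pj4 v := by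
  funext i
  refine smul_src _ i (v i) ?_
  obtain ⟨t, ht, h1⟩ := FB_sv (fun i => (v i).1) h i
  have h2 : cb ((FB fun i => (v i).1).det)⁻¹ ≠ 0 := by
    intro h3
    have h4 := cb_pow ((FB fun i => (v i).1).det)⁻¹
    rw [h3] at h4
    exact inv_ne_zero h (by rw [← h4]; norm_num)
  refine ⟨cb ((FB fun i => (v i).1).det)⁻¹ * t, mul_ne_zero h2 ht, ?_⟩
  change (cb ((FB fun i => (v i).1).det)⁻¹ • FB fun i => (v i).1) *ᵥ sv ℝ i = _
  rw [smul_mulVec, h1, smul_smul]

/-- an element of `SL_3(ℝ)` which fixes the four source points is trivial -/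
theorem eq_one_of_fix (g : G3 ℝ) (h : ∀ i, g • src ℝ i = src ℝ i) : g = 1 := by
  have hm : ∀ i, ∃ t : ℝ, g.1 *ᵥ sv ℝ i = t • sv ℝ i := by
    intro i
    have h1 : pj ℝ (Fin 3) ⟨g • sv ℝ i, (smul_ne_zero_iff_ne g).2 (sv_ne ℝ i)⟩ =
        pj ℝ (Fin 3) ⟨sv ℝ i, sv_ne ℝ i⟩ := h i
    rw [pj_eq] at h1
    obtain ⟨c, hc⟩ := h1
    exact ⟨c, hc.symm⟩
  choose t ht using hm
  have e0 := ht 0
  have e1 := ht 1
  have e2 := ht 2
  have e3 := ht 3
  have hsc : ∃ c : ℝ, (MonoidHom.id (G3 ℝ) g).1 = c • (1 : Matrix (Fin 3) (Fin 3) ℝ) := by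
    refine ⟨t 3, ?_⟩
    change g.1 = _
    have a : ∀ i : Fin 3, (g.1 i 0 = t 0 * (![1, 0, 0] : Fin 3 → ℝ) i) ∧
        (g.1 i 1 = t 1 * (![0, 1, 0] : Fin 3 → ℝ) i) ∧
        (g.1 i 2 = t 2 * (![0, 0, 1] : Fin 3 → ℝ) i) ∧
        (g.1 i 0 + g.1 i 1 + g.1 i 2 = t 3) := by
      intro i
      have b0 := congrFun e0 i
      have b1 := congrFun e1 i
      have b2 := congrFun e2 i
      have b3 := congrFun e3 i
      simp only [mulVec, dotProduct, Fin.sum_univ_three, sv, Pi.smul_apply, smul_eq_mul] at b0 b1 b2 b3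
      refine ⟨?_, ?_, ?_, ?_⟩
      · simpa using b0
      · simpa using b1
      · simpa using b2
      · fin_cases i <;> simpa using b3
    have a0 := a 0
    have a1 := a 1
    have a2 := a 2
    simp at a0 a1 a2
    ext i j
    rw [Matrix.smul_apply, smul_eq_mul]
    fin_cases i <;> fin_cases j <;> simp [Matrix.one_apply] <;> linarith [a0.1, a0.2.1, a0.2.2.1,
      a0.2.2.2, a1.1, a1.2.1, a1.2.2.1, a1.2.2.2, a2.1, a2.2.1, a2.2.2.1, a2.2.2.2]
  exact hsc_real (MonoidHom.id (G3 ℝ)) Function.injective_id g hsc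

theorem cmap_injective : Function.Injective cmap := by
  intro g h hgh
  have h1 : h⁻¹ * g = 1 := by
    refine eq_one_of_fix _ fun i => ?_
    have h2 : g • src ℝ i = h • src ℝ i := congrFun hgh i
    rw [mul_smul, h2, inv_smul_smul]
  exact (inv_mul_eq_one.1 h1).symm

/-- the vectors of a frame -/
noncomputable def fv (g : G3 ℝ) (i : Fin 4) : {v : Fin 3 → ℝ // v ≠ 0} :=
  ⟨g • sv ℝ i, (smul_ne_zero_iff_ne g).2 (sv_ne ℝ i)⟩

theorem pj4_fv (g : G3 ℝ) : pj4 (fv g) = cmap g := rfl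

theorem det_fv (g : G3 ℝ) : (FB fun i => (fv g i).1).det ≠ 0 := by
  have h : ∀ a b c : Fin 4, a ≠ b → b ≠ c → a ≠ c →
      tri (fv g a).1 (fv g b).1 (fv g c).1 ≠ 0 := by
    intro a b c h1 h2 h3
    change tri (g.1 *ᵥ sv ℝ a) (g.1 *ᵥ sv ℝ b) (g.1 *ᵥ sv ℝ c) ≠ 0
    rw [tri_mulVec, g.2, one_mul]
    exact src_tri ℝ h1 h2 h3
  rw [det_FB]
  exact mul_ne_zero (h 0 1 2 (by decide) (by decide) (by decide))
    (mul_ne_zero (mul_ne_zero (h 3 1 2 (by decide) (by decide) (by decide))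
      (h 0 3 2 (by decide) (by decide) (by decide)))
      (h 0 1 3 (by decide) (by decide) (by decide)))

theorem FM_fv (g : G3 ℝ) : FM (fun i => (fv g i).1) = g.1 := by
  have h : (⟨FM fun i => (fv g i).1, det_FM _ (det_fv g)⟩ : G3 ℝ) = g := by
    refine cmap_injective ?_
    rw [cmap_FM _ (det_fv g), pj4_fv]
  exact congrArg Subtype.val h

theorem cmap_isOpenMap : IsOpenMap cmap := by
  intro W hW
  obtain ⟨O, hO, rfl⟩ := isOpen_induced_iff.1 hW
  have hM : ContinuousOn (fun v : Fin 4 → {v : Fin 3 → ℝ // v ≠ 0} => FM fun i => (v i).1)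
      {v | (FB fun i => (v i).1).det ≠ 0} := by
    have h1 : Continuous fun v : Fin 4 → {v : Fin 3 → ℝ // v ≠ 0} =>
        (FB fun i => (v i).1).det := FB_cont.matrix_det
    exact (cb_cont.comp_continuousOn (h1.continuousOn.inv₀ fun v hv => hv)).smul
      FB_cont.continuousOn
  have hU : IsOpen {v : Fin 4 → {v : Fin 3 → ℝ // v ≠ 0} | (FB fun i => (v i).1).det ≠ 0} :=
    isOpen_ne_fun FB_cont.matrix_det continuous_const
  have h2 := hM.isOpen_inter_preimage hU hO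
  have e : cmap '' (Subtype.val ⁻¹' O) = pj4 '' ({v : Fin 4 → {v : Fin 3 → ℝ // v ≠ 0} |
      (FB fun i => (v i).1).det ≠ 0} ∩
      (fun v : Fin 4 → {v : Fin 3 → ℝ // v ≠ 0} => FM fun i => (v i).1) ⁻¹' O) := by
    ext z
    constructor
    · rintro ⟨g, hg, rfl⟩
      refine ⟨fv g, ⟨det_fv g, ?_⟩, pj4_fv g⟩
      change FM (fun i => (fv g i).1) ∈ O
      rw [FM_fv]
      exact hg
    · rintro ⟨v, ⟨hv1, hv2⟩, rfl⟩
      exact ⟨⟨FM fun i => (v i).1, det_FM _ hv1⟩, hv2, cmap_FM v hv1⟩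
  rw [e]
  exact pj4_open _ h2

/-- **(c')** the frame map is an open embedding -/
theorem isOpenEmbedding_cmap : IsOpenEmbedding cmap :=
  IsOpenEmbedding.of_continuous_injective_isOpenMap cmap_continuous cmap_injective cmap_isOpenMap

/-- **(c')** its range consists of the quadruples in general position -/
theorem range_cmap : Set.range cmap = {z | GPos z} := by
  ext z
  constructor
  · rintro ⟨g, rfl⟩
    rw [← pj4_fv]
    exact (gpos_iff _).2 (det_fv g)
  · intro hz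
    choose v hv using fun i => pj_surj (k := ℝ) (ι := Fin 3) (z i)
    have e : pj4 v = z := funext hv
    have h1 : (FB fun i => (v i).1).det ≠ 0 := by
      rw [← gpos_iff, e]
      exact hz
    exact ⟨_, (cmap_FM v h1).trans e⟩

theorem gpos_cmap (g : G3 ℝ) : GPos (cmap g) := by
  have : cmap g ∈ Set.range cmap := ⟨g, rfl⟩
  rw [range_cmap] at this
  exact this

/-- general position is invariant -/
theorem gpos_smul (g : G3 ℝ) {z : Fin 4 → PP ℝ} (h : GPos z) : GPos fun i => g • z i := by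
  have h1 : z ∈ Set.range cmap := by
    rw [range_cmap]
    exact h
  obtain ⟨x, rfl⟩ := h1
  have h2 : (fun i => g • cmap x i) = cmap (g * x) := funext fun i => (cmap_mul g x i).symm
  rw [h2]
  exact gpos_cmap (g * x)

end real

end Vale.Agent.P092.H941.FrD
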