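import Vale.Agent.P092.SR.BlocksR
import Vale.Agent.P092.H941.Seven

/-!
P092, project B, block [C7-R]: the wrapper of `H941.seven` in the letters of `SR/BlocksR.lean`.
-/

set_option linter.all false

namespace Vale.Agent.P092.H941

theorem c7RStmt : SR.C7RStmt := by
  intro ι Γ H₁ ℋ _ _ _ _ _ _ _ _ V R₁ R₂ ξ p₁ q₁ r₁ hT h₁ hp hq hr P Q F₁ F₂ C D hC hD
  haveI := h₁.top
  haveI := h₁.t2
  exact seven h₁ hT.adj₂ hp hq hr F₁ F₂ C D hC hD

end Vale.Agent.P092.H941
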