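import Vale.Agent.P092.SD.Defs
import Vale.Agent.P092.H264.EndBox

/-!
P092, TEAM D, block [E-GEO] of [D-END] (helper941; cut of helper171): four source points in
general position and the lines through them, general position of four points of the target
plane, frame boxes.
-/

set_option linter.all false

open scoped LinearAlgebra.Projectivization Matrix
open Matrix Topology Filter

namespace Vale.Agent.P092.H941.FrD

open Vale.Agent.P092.H820 Vale.Agent.P092.SD

/-! ### The triple product -/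

section alg

variable {k : Type} [Field k]

/-- the triple product -/
def tri (u v w : Fin 3 → k) : k := u ⬝ᵥ crossProduct v w

theorem tri_eq_det (u v w : Fin 3 → k) : tri u v w = (Matrix.of ![u, v, w]).det :=
  triple_product_eq_det u v w

theorem tri_expand (u v w : Fin 3 → k) : tri u v w =
    u 0 * (v 1 * w 2 - v 2 * w 1) + u 1 * (v 2 * w 0 - v 0 * w 2) +
      u 2 * (v 0 * w 1 - v 1 * w 0) := by
  rw [tri, cross_apply, dotProduct, Fin.sum_univ_three]
  simp

/-- three vectors are on a common line iff their triple product is zero -/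
theorem tri_zero_iff (u v w : Fin 3 → k) :
    tri u v w = 0 ↔ ∃ x : Fin 3 → k, x ≠ 0 ∧ u ⬝ᵥ x = 0 ∧ v ⬝ᵥ x = 0 ∧ w ⬝ᵥ x = 0 := by
  rw [tri_eq_det, ← Matrix.exists_mulVec_eq_zero_iff]
  refine exists_congr fun x => and_congr_right fun _ => ?_
  constructor
  · intro h
    exact ⟨congrFun h 0, congrFun h 1, congrFun h 2⟩
  · rintro ⟨h1, h2, h3⟩
    funext i
    fin_cases i
    · exact h1
    · exact h2
    · exact h3

theorem of_mulVec (u v w lam : Fin 3 → k) (i : Fin 3) :
    ((Matrix.of ![u, v, w])ᵀ *ᵥ lam) i = lam 0 * u i + lam 1 * v i + lam 2 * w i := by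
  rw [mulVec, dotProduct, Fin.sum_univ_three]
  simp [mul_comm]

end alg

/-! ### (a) The source: four points and the lines through them -/

section src

variable (k : Type) [Field k]

/-- the four vectors -/
def sv : Fin 4 → (Fin 3 → k) := ![![1, 0, 0], ![0, 1, 0], ![0, 0, 1], ![1, 1, 1]]

theorem sv_ne (i : Fin 4) : sv k i ≠ 0 := by
  intro h
  have h0 := congrFun h 0
  have h1 := congrFun h 1
  have h2 := congrFun h 2
  fin_cases i <;> simp [sv] at h0 h1 h2

/-- the four source points `e_0, e_1, e_2, e_0 + e_1 + e_2` -/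
def src (i : Fin 4) : PP k := pt k (sv k i) (sv_ne k i)

/-- coordinates of the line through `src i` and `src j`; for `i = j` a line through `src i` -/
def lv (i j : Fin 4) : Fin 3 → k :=
  if i = j then crossProduct (sv k i) (sv k (i + 1)) else crossProduct (sv k i) (sv k j)

theorem lv_ne (i j : Fin 4) : lv k i j ≠ 0 := by
  intro h
  have h0 := congrFun h 0
  have h1 := congrFun h 1
  have h2 := congrFun h 2
  fin_cases i <;> fin_cases j <;> simp [lv, sv, cross_apply] at h0 h1 h2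

/-- the line through `src i` and `src j` -/
def ln (i j : Fin 4) : PP k := pt k (lv k i j) (lv_ne k i j)

end src

section src2

variable (k : Type) [NontriviallyNormedField k]

theorem src_ln_left (i j : Fin 4) : (src k i, ln k i j) ∈ inc3 (k := k) := by
  change sv k i ⬝ᵥ lv k i j = 0
  rw [lv]
  split_ifs <;> simp

theorem src_ln_right (i j : Fin 4) : (src k j, ln k i j) ∈ inc3 (k := k) := by
  change sv k j ⬝ᵥ lv k i j = 0
  rw [lv]
  split_ifs with h
  · subst h
    simp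
  · simp

theorem src_ne {i j : Fin 4} (h : i ≠ j) : src k i ≠ src k j := by
  intro h1
  have h2 := (Projectivization.mk_eq_mk_iff_crossProduct_eq_zero (sv_ne k i) (sv_ne k j)).1 h1
  have h3 := lv_ne k i j
  rw [lv, if_neg h] at h3
  exact h3 h2

theorem ln_symm (i j : Fin 4) (h : i ≠ j) : ln k i j = ln k j i := by
  refine (Projectivization.mk_eq_mk_iff_crossProduct_eq_zero (lv_ne k i j) (lv_ne k j i)).2 ?_
  rw [lv, lv, if_neg h, if_neg (Ne.symm h), ← cross_anticomm (sv k i) (sv k j), map_neg,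
    cross_self, neg_zero]

/-- no three of the source points are on a line -/
theorem src_tri {i j l : Fin 4} (hij : i ≠ j) (hjl : j ≠ l) (hil : i ≠ l) :
    tri (sv k i) (sv k j) (sv k l) ≠ 0 := by
  intro h
  rw [tri_expand] at h
  fin_cases i <;> fin_cases j <;> fin_cases l <;> simp [sv] at hij hjl hil h

theorem ln_ne {i j l : Fin 4} (hij : i ≠ j) (hjl : j ≠ l) (hil : i ≠ l) :
    ln k i j ≠ ln k i l := by
  intro h
  have h1 := src_ln_left k i j
  have h2 := src_ln_right k i j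
  have h3 := src_ln_right k i l
  rw [← h] at h3
  refine src_tri k hij hjl hil ((tri_zero_iff _ _ _).2 ⟨lv k i j, lv_ne k i j, ?_, ?_, ?_⟩)
  · exact h1
  · exact h2
  · exact h3

end src2

/-! ### (b) General position -/

section gpos

variable {k : Type} [NontriviallyNormedField k]

theorem isClosed_inc : IsClosed (inc3 (k := k)) := inc3_closed

/-- a line is determined by two different points on it -/
theorem line_uniq {y y' n n' : PP k} (hne : y ≠ y') (h1 : (y, n) ∈ inc3 (k := k))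
    (h2 : (y', n) ∈ inc3 (k := k)) (h3 : (y, n') ∈ inc3 (k := k))
    (h4 : (y', n') ∈ inc3 (k := k)) : n = n' :=
  inc3_uniq y y' n n' hne h1 h2 h3 h4

/-- a point is determined by two different lines through it -/
theorem point_uniq {y y' n n' : PP k} (hne : n ≠ n') (h1 : (y, n) ∈ inc3 (k := k))
    (h2 : (y, n') ∈ inc3 (k := k)) (h3 : (y', n) ∈ inc3 (k := k))
    (h4 : (y', n') ∈ inc3 (k := k)) : y = y' := by
  have hs : ∀ a b : PP k, (a, b) ∈ inc3 (k := k) → (b, a) ∈ inc3 (k := k) := by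
    intro a b h
    obtain ⟨v, rfl⟩ := pj_surj a
    obtain ⟨w, rfl⟩ := pj_surj b
    rw [orthogonal_iff] at h ⊢
    rwa [dotProduct_comm]
  exact inc3_uniq n n' y y' hne (hs _ _ h1) (hs _ _ h2) (hs _ _ h3) (hs _ _ h4)

/-- no three of the four points are on a line -/
def GPos (z : Fin 4 → PP k) : Prop :=
  ∀ i j l : Fin 4, i ≠ j → j ≠ l → i ≠ l → ∀ n : PP k,
    ¬ ((z i, n) ∈ inc3 (k := k) ∧ (z j, n) ∈ inc3 (k := k) ∧ (z l, n) ∈ inc3 (k := k))

theorem gpos_src : GPos (src k) := by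
  rintro i j l hij hjl hil n ⟨h1, h2, h3⟩
  obtain ⟨x, rfl⟩ := pj_surj n
  refine src_tri k hij hjl hil ((tri_zero_iff _ _ _).2 ⟨x.1, x.2, ?_, ?_, ?_⟩)
  · exact h1
  · exact h2
  · exact h3

/-- the triples on a line, closed -/
theorem isClosed_col [ProperSpace k] (i j l : Fin 4) : IsClosed {z : Fin 4 → PP k |
    ∃ n : PP k, (z i, n) ∈ inc3 (k := k) ∧ (z j, n) ∈ inc3 (k := k) ∧
      (z l, n) ∈ inc3 (k := k)} := by
  have e : {z : Fin 4 → PP k | ∃ n : PP k, (z i, n) ∈ inc3 (k := k) ∧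
      (z j, n) ∈ inc3 (k := k) ∧ (z l, n) ∈ inc3 (k := k)} =
      Prod.fst '' {p : (Fin 4 → PP k) × PP k | (p.1 i, p.2) ∈ inc3 (k := k) ∧
        (p.1 j, p.2) ∈ inc3 (k := k) ∧ (p.1 l, p.2) ∈ inc3 (k := k)} := by
    ext z
    constructor
    · rintro ⟨n, h⟩
      exact ⟨(z, n), h, rfl⟩
    · rintro ⟨⟨z', n⟩, h, rfl⟩
      exact ⟨n, h⟩
  rw [e]
  refine isClosedMap_fst_of_compactSpace _ ?_
  have hc : ∀ i : Fin 4, IsClosed {p : (Fin 4 → PP k) × PP k | (p.1 i, p.2) ∈ inc3 (k := k)} :=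
    fun i => inc3_closed.preimage
      (((continuous_apply i).comp continuous_fst).prodMk continuous_snd)
  exact (hc i).inter ((hc j).inter (hc l))

theorem isOpen_gpos [ProperSpace k] : IsOpen {z : Fin 4 → PP k | GPos z} := by
  have e : {z : Fin 4 → PP k | GPos z} = ⋂ i, ⋂ j, ⋂ l, ⋂ (_ : i ≠ j), ⋂ (_ : j ≠ l),
      ⋂ (_ : i ≠ l), {z : Fin 4 → PP k | ∃ n : PP k, (z i, n) ∈ inc3 (k := k) ∧
        (z j, n) ∈ inc3 (k := k) ∧ (z l, n) ∈ inc3 (k := k)}ᶜ := by
    ext z
    simp only [Set.mem_setOf_eq, Set.mem_iInter, Set.mem_compl_iff, not_exists]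
    rfl
  rw [e]
  refine isOpen_iInter_of_finite fun i => isOpen_iInter_of_finite fun j =>
    isOpen_iInter_of_finite fun l => isOpen_iInter_of_finite fun _ =>
    isOpen_iInter_of_finite fun _ => isOpen_iInter_of_finite fun _ => ?_
  exact (isClosed_col i j l).isOpen_compl

theorem measurableSet_gpos [ProperSpace k] [MeasurableSpace (Fin 4 → PP k)]
    [BorelSpace (Fin 4 → PP k)] : MeasurableSet {z : Fin 4 → PP k | GPos z} :=
  isOpen_gpos.measurableSet

/-- four points in general position are pairwise different -/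
theorem GPos.ne {z : Fin 4 → PP k} (h : GPos z) {i j : Fin 4} (hij : i ≠ j) : z i ≠ z j := by
  intro he
  obtain ⟨l, hl1, hl2⟩ : ∃ l : Fin 4, l ≠ i ∧ l ≠ j := by
    have : ∀ i j : Fin 4, ∃ l : Fin 4, l ≠ i ∧ l ≠ j := by decide
    exact this i j
  obtain ⟨v, hv⟩ := pj_surj (z i)
  obtain ⟨w, hw⟩ := pj_surj (z l)
  obtain ⟨x, hx, h1, h2, h3⟩ := (tri_zero_iff v.1 v.1 w.1).1 (by rw [tri_expand]; ring)
  refine h i j l hij (Ne.symm hl2) (Ne.symm hl1) (pj k (Fin 3) ⟨x, hx⟩) ⟨?_, ?_, ?_⟩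
  · rw [← hv, orthogonal_iff]
    exact h1
  · rw [← he, ← hv, orthogonal_iff]
    exact h1
  · rw [← hw, orthogonal_iff]
    exact h3

end gpos

/-! ### (c) Frame boxes -/

section box

variable {k : Type} [NontriviallyNormedField k] {Γ : Type*} [Group Γ]

/-- the points with a representative close to `v` -/
def near (v : {v : Fin 3 → k // v ≠ 0}) (ε : ℝ) : Set (PP k) :=
  pj k (Fin 3) '' {v' : {v : Fin 3 → k // v ≠ 0} | ∀ i, ‖v'.1 i - v.1 i‖ < ε}

theorem isOpen_near (v : {v : Fin 3 → k // v ≠ 0}) (ε : ℝ) : IsOpen (near v ε) := by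
  refine pj_open _ ?_
  have e : {v' : {v : Fin 3 → k // v ≠ 0} | ∀ i, ‖v'.1 i - v.1 i‖ < ε} =
      ⋂ i, {v' : {v : Fin 3 → k // v ≠ 0} | ‖v'.1 i - v.1 i‖ < ε} := by
    ext v'
    simp only [Set.mem_setOf_eq, Set.mem_iInter]
  rw [e]
  refine isOpen_iInter_of_finite fun i => ?_
  have hc : Continuous fun v' : {v : Fin 3 → k // v ≠ 0} => ‖v'.1 i - v.1 i‖ :=
    (((continuous_apply i).comp continuous_subtype_val).sub continuous_const).norm
  exact isOpen_lt hc continuous_const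

theorem mem_near (v : {v : Fin 3 → k // v ≠ 0}) {ε : ℝ} (hε : 0 < ε) :
    pj k (Fin 3) v ∈ near v ε := ⟨v, fun i => by rw [sub_self, norm_zero]; exact hε, rfl⟩

theorem smul_pj (g : G3 k) (v : {v : Fin 3 → k // v ≠ 0}) :
    g • pj k (Fin 3) v = pj k (Fin 3) ⟨g • v.1, (smul_ne_zero_iff_ne g).2 v.2⟩ := rfl

theorem mv_of_smul (g : G3 k) (p q : {v : Fin 3 → k // v ≠ 0})
    (h : pj k (Fin 3) q = g • pj k (Fin 3) p) : ∃ t : k, g.1 *ᵥ p.1 = t • q.1 := by
  rw [smul_pj, eq_comm, pj_eq] at h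
  obtain ⟨t, ht⟩ := h
  exact ⟨t, ht.symm⟩

/-- **Frame box.** Four points in general position have neighbourhoods such that every
non-trivial element of a discrete group moves one of them off itself. -/
theorem frame_box4 (q : Γ →* G3 k)
    (hfin : ∀ r : ℝ, {γ | ∀ i j, ‖(q γ).1 i j‖ ≤ r}.Finite)
    (hsc : ∀ γ, (∃ c : k, (q γ).1 = c • (1 : Matrix (Fin 3) (Fin 3) k)) → γ = 1)
    (z : Fin 4 → PP k) (hz : GPos z) :
    ∃ U : Fin 4 → Set (PP k), (∀ i, IsOpen (U i) ∧ z i ∈ U i) ∧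
      ∀ γ, γ ≠ 1 → ∃ i, ∀ x ∈ U i, q γ • x ∉ U i := by
  choose v hv using fun i => pj_surj (k := k) (ι := Fin 3) (z i)
  have hcol : ∀ i j l : Fin 4, i ≠ j → j ≠ l → i ≠ l → tri (v i).1 (v j).1 (v l).1 ≠ 0 := by
    intro i j l h1 h2 h3 h0
    obtain ⟨x, hx, e1, e2, e3⟩ := (tri_zero_iff _ _ _).1 h0
    refine hz i j l h1 h2 h3 (pj k (Fin 3) ⟨x, hx⟩) ⟨?_, ?_, ?_⟩
    · rw [← hv i, orthogonal_iff]; exact e1
    · rw [← hv j, orthogonal_iff]; exact e2
    · rw [← hv l, orthogonal_iff]; exact e3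
  have d1 := hcol 0 1 2 (by decide) (by decide) (by decide)
  have d2 := hcol 0 1 3 (by decide) (by decide) (by decide)
  have d3 := hcol 0 2 3 (by decide) (by decide) (by decide)
  have d4 := hcol 1 2 3 (by decide) (by decide) (by decide)
  obtain ⟨A, hA⟩ : ∃ A : Matrix (Fin 3) (Fin 3) k,
      A = (Matrix.of ![(v 0).1, (v 1).1, (v 2).1])ᵀ := ⟨_, rfl⟩
  have hAd : A.det ≠ 0 := by
    rw [hA, det_transpose, ← tri_eq_det]
    exact d1
  obtain ⟨lam, hlam⟩ : ∃ lam : Fin 3 → k, lam = A⁻¹ *ᵥ (v 3).1 := ⟨_, rfl⟩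
  have hx : A *ᵥ lam = (v 3).1 := by
    rw [hlam, mulVec_mulVec, mul_nonsing_inv _ (isUnit_iff_ne_zero.2 hAd), one_mulVec]
  have hxi : ∀ i, (v 3).1 i = lam 0 * (v 0).1 i + lam 1 * (v 1).1 i + lam 2 * (v 2).1 i := by
    intro i
    rw [← hx, hA, of_mulVec]
  have hl : ∀ j, lam j ≠ 0 := by
    intro j hj
    fin_cases j
    · refine d4 ?_
      have hj' : lam 0 = 0 := hj
      rw [tri_expand, hxi 0, hxi 1, hxi 2, hj']
      ring
    · refine d3 ?_
      have hj' : lam 1 = 0 := hj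
      rw [tri_expand, hxi 0, hxi 1, hxi 2, hj']
      ring
    · refine d2 ?_
      have hj' : lam 2 = 0 := hj
      rw [tri_expand, hxi 0, hxi 1, hxi 2, hj']
      ring
  obtain ⟨ε, hε, hbox⟩ := H264.frame_box q hfin hsc (by norm_num) hAd hl
  refine ⟨fun i => near (v i) ε, fun i => ⟨isOpen_near _ _, ?_⟩, fun γ hγ => ?_⟩
  · have := mem_near (v i) hε
    rwa [hv i] at this
  by_contra hcon
  push Not at hcon
  choose x hx1 hx2 using hcon
  choose p hp1 hp2 using fun i => (hx1 i : x i ∈ pj k (Fin 3) '' _)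
  choose r hr1 hr2 using fun i => (hx2 i : q γ • x i ∈ pj k (Fin 3) '' _)
  choose t ht using fun i => mv_of_smul (q γ) (p i) (r i) (by rw [hp2 i, hr2 i])
  have hcl : ∀ (q1 q2 q3 : Fin 3 → k), (∀ i, ‖q1 i - (v 0).1 i‖ < ε) →
      (∀ i, ‖q2 i - (v 1).1 i‖ < ε) → (∀ i, ‖q3 i - (v 2).1 i‖ < ε) →
      ∀ i j, ‖(Matrix.of ![q1, q2, q3])ᵀ i j - A i j‖ < ε := by
    intro q1 q2 q3 h1 h2 h3 i j
    rw [hA, transpose_apply, transpose_apply]
    fin_cases j
    · exact h1 i
    · exact h2 i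
    · exact h3 i
  refine hbox γ hγ (Matrix.of ![(p 0).1, (p 1).1, (p 2).1])ᵀ
    (Matrix.of ![(r 0).1, (r 1).1, (r 2).1])ᵀ ![t 0, t 1, t 2] (p 3).1 (r 3).1 (t 3)
    (hcl _ _ _ (hp1 0) (hp1 1) (hp1 2)) (hcl _ _ _ (hr1 0) (hr1 1) (hr1 2)) ?_ ?_ ?_ (ht 3)
  · intro i
    rw [hx]
    exact hp1 3 i
  · intro i
    rw [hx]
    exact hr1 3 i
  · ext i j
    rw [mul_diagonal, transpose_apply, Matrix.mul_apply]
    fin_cases j
    · have := congrFun (ht 0) i
      simpa [mulVec, dotProduct, mul_comm] using this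
    · have := congrFun (ht 1) i
      simpa [mulVec, dotProduct, mul_comm] using this
    · have := congrFun (ht 2) i
      simpa [mulVec, dotProduct, mul_comm] using this

end box

/-! ### The hypotheses of the frame box -/

section inst

/-- a scalar matrix of determinant one over `ℝ` is `1` -/
theorem hsc_real {Γ : Type*} [Group Γ] (q : Γ →* G3 ℝ) (hq : Function.Injective q) (γ : Γ)
    (h : ∃ c : ℝ, (q γ).1 = c • (1 : Matrix (Fin 3) (Fin 3) ℝ)) : γ = 1 := by
  obtain ⟨c, hc⟩ := h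
  have h1 : (c : ℝ) ^ 3 = 1 := by
    have h2 := (q γ).2
    rw [hc, det_smul, det_one, mul_one, Fintype.card_fin] at h2
    exact h2
  have h2 : c = 1 := by
    have h3 : (c - 1) * (c ^ 2 + c + 1) = 0 := by ring_nf; linarith
    rcases mul_eq_zero.1 h3 with h4 | h4
    · linarith
    · nlinarith [sq_nonneg (c + 1 / 2)]
  refine hq ?_
  rw [map_one]
  apply Subtype.ext
  rw [hc, h2, one_smul]
  rfl

variable {k : Type} [NontriviallyNormedField k] [ProperSpace k]

/-- bounded sets of `SL_3(k)` are relatively compact -/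
theorem isCompact_bdd (r : ℝ) : IsCompact {g : G3 k | ∀ i j, ‖g.1 i j‖ ≤ r} := by
  have hc : IsClosedEmbedding (Subtype.val : G3 k → Matrix (Fin 3) (Fin 3) k) := by
    refine ⟨⟨⟨rfl⟩, Subtype.val_injective⟩, ?_⟩
    have : Set.range (Subtype.val : G3 k → Matrix (Fin 3) (Fin 3) k) =
        {A | A.det = 1} := by
      ext A
      constructor
      · rintro ⟨g, rfl⟩
        exact g.2
      · intro h
        exact ⟨⟨A, h⟩, rfl⟩
    rw [this]
    exact isClosed_eq (Continuous.matrix_det continuous_id) continuous_const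
  have hK : IsCompact {A : Matrix (Fin 3) (Fin 3) k | ∀ i j, ‖A i j‖ ≤ r} := by
    have h1 : IsCompact (Set.pi Set.univ fun _ : Fin 3 =>
        Set.pi Set.univ fun _ : Fin 3 => Metric.closedBall (0 : k) r) :=
      isCompact_univ_pi fun _ => isCompact_univ_pi fun _ => isCompact_closedBall _ _
    have e : {A : Matrix (Fin 3) (Fin 3) k | ∀ i j, ‖A i j‖ ≤ r} = (Set.pi Set.univ
        fun _ : Fin 3 => Set.pi Set.univ fun _ : Fin 3 => Metric.closedBall (0 : k) r) := by
      ext A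
      constructor
      · intro h i _ j _
        exact mem_closedBall_zero_iff.2 (h i j)
      · intro h i j
        exact mem_closedBall_zero_iff.1 (h i (Set.mem_univ i) j (Set.mem_univ j))
    rw [e]
    exact h1
  exact hc.isCompact_preimage hK

/-- a group embedded as a discrete subgroup has finitely many bounded elements -/
theorem hfin_disc {Γ : Type*} [Group Γ] (q : Γ →* G3 k) (hq : Function.Injective q)
    [DiscreteTopology q.range] (r : ℝ) : {γ | ∀ i j, ‖(q γ).1 i j‖ ≤ r}.Finite := by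
  have h1 : IsClosed (q.range : Set (G3 k)) := inferInstance
  have h2 : IsCompact ((q.range : Set (G3 k)) ∩ {g : G3 k | ∀ i j, ‖g.1 i j‖ ≤ r}) :=
    (isCompact_bdd r).inter_left h1
  have h3 : ((q.range : Set (G3 k)) ∩ {g : G3 k | ∀ i j, ‖g.1 i j‖ ≤ r}).Finite := by
    refine h2.finite ?_
    exact (isDiscrete_iff_discreteTopology.2 ‹_›).mono Set.inter_subset_left
  refine Set.Finite.of_finite_image (f := q) (h3.subset ?_) hq.injOn
  rintro _ ⟨γ, hγ, rfl⟩
  exact ⟨⟨γ, rfl⟩, hγ⟩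

end inst

end Vale.Agent.P092.H941.FrD
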