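import Vale.Agent.P092.SR.Defs

/-!
P092 (helper941), project B: general facts about covariant families of projections `SR.PFam`.
-/

set_option linter.all false

open scoped InnerProductSpace
open Filter Topology ContinuousLinearMap Set

namespace Vale.Agent.P092.H941

open Vale.Agent.P092.SR

theorem co_empty {X : Type} [TopologicalSpace X] : CO (∅ : Set X) := ⟨isCompact_empty, isOpen_empty⟩

section top
variable {H : Type} [TopologicalSpace H]

theorem co_inter [T2Space H] {C D : Set H} (hC : CO C) (hD : CO D) : CO (C ∩ D) :=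
  ⟨hC.1.inter hD.1, hC.2.inter hD.2⟩

theorem co_union {C D : Set H} (hC : CO C) (hD : CO D) : CO (C ∪ D) :=
  ⟨hC.1.union hD.1, hC.2.union hD.2⟩

theorem co_diff [T2Space H] {C D : Set H} (hC : CO C) (hD : CO D) : CO (C \ D) :=
  ⟨hC.1.diff hD.2, hC.2.sdiff hD.1.isClosed⟩

end top

section grp
variable {H : Type} [Group H] [TopologicalSpace H] [IsTopologicalGroup H]

theorem co_left {C : Set H} (hC : CO C) (g : H) : CO ((fun x => g * x) '' C) :=
  ⟨hC.1.image (continuous_const_mul g), (isOpenMap_mul_left g) _ hC.2⟩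

theorem co_right {C : Set H} (hC : CO C) (g : H) : CO ((fun x => x * g) '' C) :=
  ⟨hC.1.image (continuous_mul_const g), (isOpenMap_mul_right g) _ hC.2⟩

end grp

section pfam

variable {Γ H ℋ : Type} [Group Γ] [Group H] [TopologicalSpace H] [NormedAddCommGroup ℋ]
  [InnerProductSpace ℂ ℋ] [CompleteSpace ℋ]
  {p q : Γ →* H} {S T : Γ →* (ℋ →L[ℂ] ℋ)} {sc : Set (ℋ →L[ℂ] ℋ)} {P : Set H → (ℋ →L[ℂ] ℋ)}

theorem pf_empty (h : PFam p q S T sc P) : P ∅ = 0 := by
  have h1 := h.add ∅ ∅ co_empty co_empty (disjoint_bot_left)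
  rw [empty_union] at h1
  exact left_eq_add.mp h1

theorem pf_idem (h : PFam p q S T sc P) {C : Set H} (hC : CO C) : P C * P C = P C := by
  rw [h.mul C C hC hC, inter_self]

theorem pf_apply_mul (h : PFam p q S T sc P) {C D : Set H} (hC : CO C) (hD : CO D) (ζ : ℋ) :
    P C (P D ζ) = P (C ∩ D) ζ := by
  rw [← h.mul C D hC hD]; rfl

theorem pf_symm (h : PFam p q S T sc P) {C : Set H} (hC : CO C) (ζ η : ℋ) :
    ⟪P C ζ, η⟫_ℂ = ⟪ζ, P C η⟫_ℂ := by
  rw [← adjoint_inner_right, h.adj C hC]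

theorem pf_commP (h : PFam p q S T sc P) {C D : Set H} (hC : CO C) (hD : CO D) :
    P C * P D = P D * P C := by
  rw [h.mul C D hC hD, h.mul D C hD hC, inter_comm]

theorem pf_zero_of_disjoint (h : PFam p q S T sc P) {C D : Set H} (hC : CO C) (hD : CO D)
    (hd : Disjoint C D) : P C * P D = 0 := by
  rw [h.mul C D hC hD, hd.inter_eq, pf_empty h]

/-- The sets `C` with `P C ζ = 0`: monotone. -/
theorem pf_kill_mono (h : PFam p q S T sc P) {C D : Set H} (hC : CO C) (hD : CO D)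
    (hCD : C ⊆ D) {ζ : ℋ} (hζ : P D ζ = 0) : P C ζ = 0 := by
  have h1 := pf_apply_mul h hC hD ζ
  rw [hζ, map_zero, inter_eq_left.mpr hCD] at h1
  exact h1.symm

theorem pf_kill_union [T2Space H] (h : PFam p q S T sc P) {C D : Set H} (hC : CO C) (hD : CO D)
    {ζ : ℋ} (h1 : P C ζ = 0) (h2 : P D ζ = 0) : P (C ∪ D) ζ = 0 := by
  have h3 := h.add C (D \ C) hC (co_diff hD hC) disjoint_sdiff_right
  rw [union_diff_self] at h3
  rw [h3, add_apply, h1, zero_add]
  exact pf_kill_mono h (co_diff hD hC) hD diff_subset h2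

/-- Covering lemma. -/
theorem pf_kill_cover [T2Space H] (h : PFam p q S T sc P) {ι : Type*} {D : ι → Set H}
    (hD : ∀ i, CO (D i)) (hcov : ∀ x, ∃ i, x ∈ D i) {ζ : ℋ} (hζ : ∀ i, P (D i) ζ = 0) : ζ = 0 := by
  refine h.nondeg ζ fun C hC => ?_
  obtain ⟨t, ht⟩ := hC.1.elim_finite_subcover D (fun i => (hD i).2) (fun x _ => by
    obtain ⟨i, hi⟩ := hcov x
    exact mem_iUnion.2 ⟨i, hi⟩)
  have h1 : ∀ s : Finset ι, CO (⋃ i ∈ s, D i) ∧ P (⋃ i ∈ s, D i) ζ = 0 := by
    intro s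
    classical
    induction s using Finset.induction_on with
    | empty => simp only [Finset.notMem_empty, iUnion_of_empty, iUnion_empty, pf_empty h, zero_apply,
        and_true]; exact co_empty
    | insert a s ha ih =>
      rw [Finset.set_biUnion_insert]
      exact ⟨co_union (hD a) ih.1, pf_kill_union h (hD a) ih.1 (hζ a) ih.2⟩
  exact pf_kill_mono h hC (h1 t).1 ht (h1 t).2

/-- A partition of `H` into compact open sets gives a partition of unity: norms. -/
theorem pf_norm_sum_le [T2Space H] (h : PFam p q S T sc P) {ι : Type*} {D : ι → Set H}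
    (hD : ∀ i, CO (D i)) (hdis : Pairwise fun i j => Disjoint (D i) (D j)) (ζ : ℋ) (s : Finset ι) :
    ∑ i ∈ s, ‖P (D i) ζ‖ ^ 2 ≤ ‖ζ‖ ^ 2 := by
  classical
  -- `P (⋃ D i) ζ = ∑ P (D i) ζ`
  have h1 : ∀ s : Finset ι, CO (⋃ i ∈ s, D i) ∧ P (⋃ i ∈ s, D i) = ∑ i ∈ s, P (D i) := by
    intro s
    induction s using Finset.induction_on with
    | empty =>
      simp only [Finset.notMem_empty, iUnion_of_empty, iUnion_empty, Finset.sum_empty, pf_empty h,
        and_true]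
      exact co_empty
    | insert a s ha ih =>
      rw [Finset.set_biUnion_insert, Finset.sum_insert ha, ← ih.2]
      refine ⟨co_union (hD a) ih.1, h.add _ _ (hD a) ih.1 ?_⟩
      rw [disjoint_iUnion₂_right]
      intro i hi
      exact hdis (fun h => ha (h ▸ hi))
  obtain ⟨hU, hs⟩ := h1 s
  set U := ⋃ i ∈ s, D i
  have h2 : ∀ C, CO C → ‖P C ζ‖ ^ 2 = (⟪ζ, P C ζ⟫_ℂ).re := by
    intro C hC
    rw [← pf_symm h hC, ← pf_idem h hC]
    change ‖(P C * P C) ζ‖ ^ 2 = (⟪P C (P C ζ), ζ⟫_ℂ).re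
    rw [pf_symm h hC]
    change ‖(P C * P C) ζ‖ ^ 2 = (⟪P C ζ, P C ζ⟫_ℂ).re
    rw [pf_idem h hC, inner_self_eq_norm_sq_to_K]
    norm_cast
  have h3 : ∑ i ∈ s, ‖P (D i) ζ‖ ^ 2 = ‖P U ζ‖ ^ 2 := by
    rw [h2 U hU, hs, ContinuousLinearMap.sum_apply, inner_sum, Complex.re_sum]
    exact Finset.sum_congr rfl fun i _ => h2 _ (hD i)
  rw [h3, h2 U hU]
  have h4 : ‖P U ζ‖ ^ 2 ≤ ‖ζ‖ * ‖P U ζ‖ := by
    rw [h2 U hU]
    exact (Complex.re_le_norm _).trans (norm_inner_le_norm _ _)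
  have h5 : ‖P U ζ‖ ≤ ‖ζ‖ := by
    rcases (norm_nonneg (P U ζ)).eq_or_lt with h0 | h0
    · rw [← h0]; exact norm_nonneg _
    · nlinarith
  rw [← h2 U hU]
  exact pow_le_pow_left₀ (norm_nonneg _) h5 2

/-- `P C` is a contraction. -/
theorem pf_norm_le [T2Space H] (h : PFam p q S T sc P) {C : Set H} (hC : CO C) (ζ : ℋ) :
    ‖P C ζ‖ ≤ ‖ζ‖ := by
  have := pf_norm_sum_le h (ι := Unit) (D := fun _ => C) (fun _ => hC)
    (fun i j hij => absurd (Subsingleton.elim i j) hij) ζ Finset.univ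
  simp only [Finset.univ_unique, Finset.sum_const, Finset.card_singleton, one_smul] at this
  exact (abs_le_of_sq_le_sq' this (norm_nonneg _)).2

end pfam

/-! ### Sums of orthogonal pieces -/

section orth

variable {ℋ : Type} [NormedAddCommGroup ℋ] [InnerProductSpace ℂ ℋ] [CompleteSpace ℋ]

/-- Summability of orthogonal vectors. -/
theorem summable_of_orth {ι : Type*} {v : ι → ℋ} (ho : Pairwise fun i j => ⟪v i, v j⟫_ℂ = 0)
    {C : ℝ} (hC : ∀ s : Finset ι, ∑ i ∈ s, ‖v i‖ ^ 2 ≤ C) :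
    Summable v ∧ ‖∑' i, v i‖ ^ 2 ≤ C := by
  classical
  have hpyth : ∀ s : Finset ι, ‖∑ i ∈ s, v i‖ ^ 2 = ∑ i ∈ s, ‖v i‖ ^ 2 := by
    intro s
    induction s using Finset.induction_on with
    | empty => simp
    | insert a s ha ih =>
      rw [Finset.sum_insert ha, Finset.sum_insert ha, ← ih]
      have h1 : ⟪v a, ∑ i ∈ s, v i⟫_ℂ = 0 := by
        rw [inner_sum]
        exact Finset.sum_eq_zero fun i hi => ho (fun h => ha (h ▸ hi))
      have h2 := norm_add_sq (𝕜 := ℂ) (v a) (∑ i ∈ s, v i)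
      rw [h1] at h2
      simpa using h2
  have hs : Summable fun i => ‖v i‖ ^ 2 := summable_of_sum_le (fun i => by positivity) hC
  have hsum : Summable v := by
    rw [summable_iff_vanishing_norm]
    intro ε hε
    obtain ⟨s, hs'⟩ := (summable_iff_vanishing_norm.1 hs) (ε ^ 2) (by positivity)
    refine ⟨s, fun t ht => ?_⟩
    have h1 := hs' t ht
    rw [← hpyth t, Real.norm_eq_abs, abs_of_nonneg (by positivity)] at h1
    exact lt_of_pow_lt_pow_left₀ 2 hε.le h1
  refine ⟨hsum, ?_⟩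
  have h3 : Tendsto (fun s : Finset ι => ‖∑ i ∈ s, v i‖ ^ 2) atTop (𝓝 (‖∑' i, v i‖ ^ 2)) :=
    (hsum.hasSum.norm).pow 2
  refine le_of_tendsto h3 (Eventually.of_forall fun s => ?_)
  rw [hpyth s]
  exact hC s

end orth

end Vale.Agent.P092.H941
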