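import Vale.Agent.P092.H941.PF

/-!
P092 (helper941), project B: the pinching `∑ P(D_i) e P(D_i)` of an operator by a partition.
-/

set_option linter.all false

open scoped InnerProductSpace
open Filter Topology ContinuousLinearMap Set

namespace Vale.Agent.P092.H941

open Vale.Agent.P092.SR

section

variable {Γ H ℋ : Type} [Group Γ] [Group H] [TopologicalSpace H] [T2Space H]
  [NormedAddCommGroup ℋ] [InnerProductSpace ℂ ℋ] [CompleteSpace ℋ]
  {p q : Γ →* H} {S T : Γ →* (ℋ →L[ℂ] ℋ)} {sc : Set (ℋ →L[ℂ] ℋ)} {P : Set H → (ℋ →L[ℂ] ℋ)}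

/-- Operators which agree after multiplication with all `P (D i)` are equal. -/
theorem eq_of_cover (h : PFam p q S T sc P) {ι : Type*} {D : ι → Set H}
    (hD : ∀ i, CO (D i)) (hcov : ∀ x, ∃ i, x ∈ D i) {A B : ℋ →L[ℂ] ℋ}
    (hAB : ∀ i, P (D i) * A = P (D i) * B) : A = B := by
  ext1 ζ
  rw [← sub_eq_zero]
  refine pf_kill_cover h hD hcov fun i => ?_
  rw [map_sub, sub_eq_zero]
  exact congrArg (fun X : ℋ →L[ℂ] ℋ => X ζ) (hAB i)

theorem pinch_aux (h : PFam p q S T sc P) {ι : Type*} {D : ι → Set H}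
    (hD : ∀ i, CO (D i)) (hdis : Pairwise fun i j => Disjoint (D i) (D j)) (e : ℋ →L[ℂ] ℋ)
    (ζ : ℋ) : Summable (fun i => P (D i) (e (P (D i) ζ))) ∧
      ‖∑' i, P (D i) (e (P (D i) ζ))‖ ^ 2 ≤ (‖e‖ * ‖ζ‖) ^ 2 := by
  refine summable_of_orth ?_ ?_
  · intro i j hij
    rw [pf_symm h (hD i)]
    have h1 : P (D i) (P (D j) (e (P (D j) ζ))) = 0 := by
      rw [pf_apply_mul h (hD i) (hD j), (hdis hij).inter_eq, pf_empty h, zero_apply]
    rw [h1, inner_zero_right]
  · intro s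
    calc ∑ i ∈ s, ‖P (D i) (e (P (D i) ζ))‖ ^ 2 ≤ ∑ i ∈ s, ‖e‖ ^ 2 * ‖P (D i) ζ‖ ^ 2 := by
          refine Finset.sum_le_sum fun i _ => ?_
          rw [← mul_pow]
          exact pow_le_pow_left₀ (norm_nonneg _) ((pf_norm_le h (hD i) _).trans
            (e.le_opNorm _)) 2
      _ = ‖e‖ ^ 2 * ∑ i ∈ s, ‖P (D i) ζ‖ ^ 2 := by rw [Finset.mul_sum]
      _ ≤ ‖e‖ ^ 2 * ‖ζ‖ ^ 2 := by
          have := pf_norm_sum_le h hD hdis ζ s
          gcongr
      _ = _ := by rw [mul_pow]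

/-- **Pinching.** -/
theorem exists_pinch (h : PFam p q S T sc P) {ι : Type*} {D : ι → Set H}
    (hD : ∀ i, CO (D i)) (hdis : Pairwise fun i j => Disjoint (D i) (D j)) (e : ℋ →L[ℂ] ℋ) :
    ∃ y : ℋ →L[ℂ] ℋ, (∀ ζ, HasSum (fun i => P (D i) (e (P (D i) ζ))) (y ζ)) ∧
      (∀ i, P (D i) * y = P (D i) * e * P (D i)) ∧ (∀ i, y * P (D i) = P (D i) * e * P (D i)) := by
  classical
  have haux := pinch_aux h hD hdis e
  let y₀ : ℋ →ₗ[ℂ] ℋ :=
    { toFun := fun ζ => ∑' i, P (D i) (e (P (D i) ζ))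
      map_add' := fun a b => by
        rw [← (haux a).1.tsum_add (haux b).1]
        congr 1
        funext i
        rw [map_add, map_add, map_add]
      map_smul' := fun c a => by
        rw [RingHom.id_apply, ← (haux a).1.tsum_const_smul]
        congr 1
        funext i
        rw [map_smul, map_smul, map_smul] }
  let y : ℋ →L[ℂ] ℋ := y₀.mkContinuous ‖e‖ fun ζ =>
    (abs_le_of_sq_le_sq' (haux ζ).2 (by positivity)).2
  have hy : ∀ ζ, HasSum (fun i => P (D i) (e (P (D i) ζ))) (y ζ) := fun ζ => (haux ζ).1.hasSum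
  refine ⟨y, hy, fun i => ?_, fun i => ?_⟩
  · ext1 ζ
    have h1 := (hy ζ).mapL (P (D i))
    have h2 : (fun j => P (D i) (P (D j) (e (P (D j) ζ)))) =
        fun j => if j = i then P (D i) (e (P (D i) ζ)) else 0 := by
      funext j
      split_ifs with hj
      · rw [hj, pf_apply_mul h (hD i) (hD i), inter_self]
      · rw [pf_apply_mul h (hD i) (hD j), (hdis (Ne.symm hj)).inter_eq, pf_empty h, zero_apply]
    rw [h2] at h1
    exact h1.unique (hasSum_ite_eq i _)
  · ext1 ζ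
    have h1 := hy (P (D i) ζ)
    have h2 : (fun j => P (D j) (e (P (D j) (P (D i) ζ)))) =
        fun j => if j = i then P (D i) (e (P (D i) ζ)) else 0 := by
      funext j
      split_ifs with hj
      · rw [hj, pf_apply_mul h (hD i) (hD i), inter_self]
      · rw [pf_apply_mul h (hD j) (hD i), (hdis hj).inter_eq, pf_empty h, zero_apply, map_zero,
          map_zero]
    rw [h2] at h1
    exact h1.unique (hasSum_ite_eq i _)

end

/-! ### Coset partitions -/

section coset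

variable {Γ H : Type} [Group Γ] [Group H] [TopologicalSpace H] [IsTopologicalGroup H]

/-- The partition of `H` into right cosets `L q(g)⁻¹`. -/
def RC (q : Γ →* H) (L : Subgroup H) (g : Γ) : Set H := (fun x => x * (q g)⁻¹) '' (L : Set H)

theorem mem_RC {q : Γ →* H} {L : Subgroup H} {g : Γ} {x : H} : x ∈ RC q L g ↔ x * q g ∈ L := by
  constructor
  · rintro ⟨y, hy, rfl⟩
    simpa using hy
  · intro h
    exact ⟨_, h, by simp⟩

theorem RC_CO {q : Γ →* H} {L : Subgroup H} (hL : COS L) (g : Γ) : CO (RC q L g) :=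
  co_right hL _

theorem RC_eq {q : Γ →* H} {L : Subgroup H} {g g' : Γ} (h : g⁻¹ * g' ∈ L.comap q) :
    RC q L g = RC q L g' := by
  ext x
  rw [mem_RC, mem_RC]
  rw [Subgroup.mem_comap] at h
  have : x * q g' = x * q g * q (g⁻¹ * g') := by
    rw [map_mul, map_inv]; group
  rw [this]
  exact (L.mul_mem_cancel_right h).symm

theorem RC_disj {q : Γ →* H} {L : Subgroup H} :
    Pairwise fun i j : Γ ⧸ L.comap q => Disjoint (RC q L i.out) (RC q L j.out) := by
  intro i j hij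
  rw [Set.disjoint_left]
  intro x hx hx'
  rw [mem_RC] at hx hx'
  apply hij
  rw [← Quotient.out_eq i, ← Quotient.out_eq j]
  refine QuotientGroup.eq.2 ?_
  rw [Subgroup.mem_comap, map_mul, map_inv]
  have h1 := L.mul_mem (L.inv_mem hx) hx'
  rwa [show (x * q i.out)⁻¹ * (x * q j.out) = (q i.out)⁻¹ * q j.out by group] at h1

theorem out_mem {Θ : Subgroup Γ} (g : Γ) : g⁻¹ * (QuotientGroup.mk g : Γ ⧸ Θ).out ∈ Θ := by
  have := QuotientGroup.eq.1 (Quotient.out_eq (QuotientGroup.mk g : Γ ⧸ Θ)).symm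
  exact this

theorem RC_cov {q : Γ →* H} (hq : DenseRange q) {L : Subgroup H} (hL : IsOpen (L : Set H)) (x : H) :
    ∃ i : Γ ⧸ L.comap q, x ∈ RC q L i.out := by
  have hU : IsOpen {h : H | x * h ∈ L} := hL.preimage (continuous_const_mul x)
  obtain ⟨g, hg⟩ := hq.exists_mem_open hU ⟨x⁻¹, by
    simp only [mem_setOf_eq, mul_inv_cancel]; exact L.one_mem⟩
  refine ⟨QuotientGroup.mk g, ?_⟩
  rw [← RC_eq (out_mem g), mem_RC]
  exact hg

end coset

end Vale.Agent.P092.H941
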